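import Vale.Agent.P048.Full.Small.Ears

/-!
P048, small cycle lengths: no clique on `m - 1` or `m - 2` vertices.
-/

open scoped Classical

namespace Vale.Agent.P048.Full.Small

variable {V : Type*} {G : SimpleGraph V} {m k s : ℕ} {X K : Finset V}

/-- No clique on `m - 1 = k ≥ 4` vertices. -/
theorem no_clique_top (h : Setup G m k s X K) (hs : s + 1 = m) (hk : k = s) (hm : 5 ≤ m)
    (hX : X.card = (m - 1) * k + 1) : False := by
  have hex : ∀ e ∈ K, ∃ y, y ∈ X \ K ∧ G.Adj e y := by
    intro e he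
    have := h.nb_card he
    obtain ⟨y, hy⟩ := Finset.card_pos.1 (by omega : 0 < (nb G e (X \ K)).card)
    exact ⟨y, mem_nb.1 hy⟩
  let r : V → V := fun e => if he : e ∈ K then (hex e he).choose else e
  have hr : ∀ e ∈ K, r e ∈ X \ K ∧ G.Adj e (r e) := by
    intro e he
    simp only [r, dif_pos he]
    exact (hex e he).choose_spec
  have hatt : ∀ e ∈ K, e ∈ att G K (r e) := fun e he => mem_att.2 ⟨he, (hr e he).2.symm⟩
  have hone : ∀ e ∈ K, att G K (r e) = {e} := fun e he => Finset.eq_singleton_iff_unique_mem.2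
    ⟨hatt e he, fun f hf => h.no_double (by omega) (by omega) (hr e he).1 hf (hatt e he)⟩
  have hdis : ∀ e ∈ K, ∀ f ∈ K, e ≠ f →
      Disjoint (unit G X K (r e)) (unit G X K (r f)) := by
    intro e he f hf hne
    have hry : r e ≠ r f := fun e' => hne
      (h.no_double (by omega) (by omega) (hr e he).1 (hatt e he) (e' ▸ hatt f hf))
    have hA : ¬ G.Adj (r e) (r f) :=
      h.no_edge (by omega) (by omega) (hr e he).1 (hr f hf).1 (hatt e he) (hatt f hf) hne
    rw [Finset.disjoint_left]
    intro u hu hu'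
    simp only [unit, Finset.mem_insert, mem_nb] at hu hu'
    rcases hu with rfl | ⟨huW, hu⟩ <;> rcases hu' with h' | ⟨huW', hu'⟩
    · exact hry h'
    · exact hA hu'.symm
    · exact hA (h' ▸ hu)
    · exact h.no_common (by omega) (by omega) (hr e he).1 (hr f hf).1 huW (hatt e he) (hatt f hf)
        hne hry hu hu'.symm
  have h1 : (K.biUnion fun e => unit G X K (r e)).card ≤ (X \ K).card :=
    Finset.card_le_card (Finset.biUnion_subset.2 fun e he => unit_subset (hr e he).1)
  rw [Finset.card_biUnion hdis] at h1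
  have h2 : ∑ _e ∈ K, (m - 1) ≤ ∑ e ∈ K, (unit G X K (r e)).card := by
    refine Finset.sum_le_sum fun e he => ?_
    have := h.unit_card (hr e he).1
    rw [hone e he, Finset.card_singleton] at this
    omega
  rw [Finset.sum_const, smul_eq_mul, h.card] at h2
  rw [Finset.card_sdiff_of_subset h.sub, h.card, hX] at h1
  subst hk
  rw [Nat.mul_comm (m - 1)] at h1
  have h3 := Nat.mul_pos (show 0 < k by omega) (show 0 < m - 1 by omega)
  generalize k * (m - 1) = P at h1 h2 h3
  omega

/-- Two outside vertices attached at least twice have the same two attachments. -/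
lemma Setup.same_pair (h : Setup G m k s X K) (hs : m ≤ s + 2) (hm : 6 ≤ m) {x y : V}
    (hx : x ∈ X \ K) (hy : y ∈ X \ K) (hxy : x ≠ y) (h2x : 2 ≤ (att G K x).card)
    (h2y : 2 ≤ (att G K y).card) : att G K x = att G K y ∧ (att G K x).card = 2 := by
  have shared : ∀ p q g, p ∈ att G K x → q ∈ att G K x → q ∈ att G K y → g ∈ att G K y →
      p ≠ q → g ≠ q → p = g := by
    intro p q g hp hq hq' hg hpq hgq
    by_contra hpg
    rw [mem_att] at hp hq hq' hg
    refine h.cx.noc (fill h.cl p g [x, q, y] [q] ?_ ?_ ⟨hp.1, hg.1⟩ ?_ (by simp; omega) ?_)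
    · simp [kw hp.1 hx, hpq, kw hp.1 hy, hpg, (kw hq.1 hx).symm, hxy, (kw hg.1 hx).symm,
        kw hq.1 hy, hgq.symm, (kw hg.1 hy).symm]
    · simp [hp.2.symm, hq.2, hq'.2.symm, hg.2]
    · simp [(Finset.mem_sdiff.1 hx).2, (Finset.mem_sdiff.1 hy).2]
    · simp [h.card]
      omega
  obtain ⟨p, hp, q, hq, hpq⟩ := Finset.one_lt_card.1 h2x
  obtain ⟨g, hg, g', hg', hgg⟩ := Finset.one_lt_card.1 h2y
  by_cases hcap : ∀ e ∈ att G K x, e ∉ att G K y
  · exfalso
    have e1 : q ≠ g := fun e => hcap q hq (e ▸ hg)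
    have e2 : q ≠ g' := fun e => hcap q hq (e ▸ hg')
    have e3 : p ≠ g := fun e => hcap p hp (e ▸ hg)
    have e4 : p ≠ g' := fun e => hcap p hp (e ▸ hg')
    rw [mem_att] at hp hq hg hg'
    refine h.cx.noc (fill h.cl p g' [x, q, g, y] [q, g] ?_ ?_ ⟨hp.1, hg'.1⟩ ?_ (by simp; omega) ?_)
    · simp [kw hp.1 hx, hpq, e3, e4, kw hp.1 hy, (kw hq.1 hx).symm, (kw hg.1 hx).symm, hxy,
        (kw hg'.1 hx).symm, e1, e2, kw hq.1 hy, kw hg.1 hy, hgg, (kw hg'.1 hy).symm]
    · simp [hp.2.symm, hq.2, h.cl hq.1 hg.1 e1, hg.2.symm, hg'.2]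
    · simp [(Finset.mem_sdiff.1 hx).2, (Finset.mem_sdiff.1 hy).2]
    · simp [h.card]
      omega
  push Not at hcap
  obtain ⟨c, hc, hc'⟩ := hcap
  obtain ⟨d, hd, hdc⟩ := Finset.exists_mem_ne (by omega : 1 < (att G K x).card) c
  obtain ⟨d', hd', hdc'⟩ := Finset.exists_mem_ne (by omega : 1 < (att G K y).card) c
  have hex : ∀ e ∈ att G K x, e = c ∨ e = d' := fun e he => by
    by_cases hec : e = c
    · exact Or.inl hec
    · exact Or.inr (shared e c d' he hc hc' hd' hec hdc')
  have hey : ∀ e ∈ att G K y, e = c ∨ e = d := fun e he => by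
    by_cases hec : e = c
    · exact Or.inl hec
    · exact Or.inr (shared d c e hd hc hc' he hdc hec).symm
  have hdd : d = d' := shared d c d' hd hc hc' hd' hdc hdc'
  have hxe : att G K x = {c, d} := by
    ext e
    simp only [Finset.mem_insert, Finset.mem_singleton]
    exact ⟨fun he => hdd ▸ hex e he, by rintro (rfl | rfl) <;> assumption⟩
  have hye : att G K y = {c, d} := by
    ext e
    simp only [Finset.mem_insert, Finset.mem_singleton]
    exact ⟨hey e, by rintro (rfl | rfl); exacts [hc', hdd ▸ hd']⟩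
  exact ⟨hxe.trans hye.symm, by rw [hxe, Finset.card_pair hdc.symm]⟩

/-- No clique on `m - 2 ≥ 4` vertices. -/
theorem no_clique_sub (h : Setup G m k s X K) (hs : s + 2 = m) (hm : 6 ≤ m)
    (hk : k + 1 ≤ m) : False := by
  set M := (X \ K).filter fun y => 2 ≤ (att G K y).card with hM
  -- one vertex attached only to `e`, for `e` in a set `E`
  have main : ∀ (E : Finset V) (Q : Finset V), E ⊆ K → Q ⊆ M →
      (∀ e ∈ E, ∃ y ∈ X \ K, att G K y = {e}) →
      (∀ x ∈ Q, ∀ y ∈ Q, x ≠ y → ¬ G.Adj x y) → 2 * E.card + Q.card ≤ k := by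
    intro E Q hE hQ hex hQQ
    let r : V → V := fun e => if he : e ∈ E then (hex e he).choose else e
    have hr : ∀ e ∈ E, r e ∈ X \ K ∧ att G K (r e) = {e} := by
      intro e he
      simp only [r, dif_pos he]
      exact (hex e he).choose_spec
    have hinj : Set.InjOn r E := fun e he f hf hef =>
      Finset.singleton_injective ((hr e he).2.symm.trans (hef ▸ (hr f hf).2))
    have hdisj : Disjoint (E.image r) Q := by
      rw [Finset.disjoint_left]
      intro y hy hy'
      obtain ⟨e, he, rfl⟩ := Finset.mem_image.1 hy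
      have := (Finset.mem_filter.1 (hQ hy')).2
      rw [(hr e he).2] at this
      simp at this
    have hsub : E.image r ∪ Q ⊆ X \ K := Finset.union_subset
      (Finset.image_subset_iff.2 fun e he => (hr e he).1) (hQ.trans (Finset.filter_subset _ _))
    have h1 := h.units_le (by omega) hm (E.image r ∪ Q) hsub fun y hy y' hy' hne => by
      obtain ⟨e, f, he, hf, hef⟩ : ∃ e f, e ∈ att G K y ∧ f ∈ att G K y' ∧ e ≠ f := by
        rcases Finset.mem_union.1 hy with hy1 | hy1
        · obtain ⟨e, he, rfl⟩ := Finset.mem_image.1 hy1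
          rcases Finset.mem_union.1 hy' with hy2 | hy2
          · obtain ⟨f, hf, rfl⟩ := Finset.mem_image.1 hy2
            exact ⟨e, f, by simp [(hr e he).2], by simp [(hr f hf).2], fun h => hne (h ▸ rfl)⟩
          · obtain ⟨f, hf, hfe⟩ := Finset.exists_mem_ne
              (show 1 < (att G K y').card from (Finset.mem_filter.1 (hQ hy2)).2) e
            exact ⟨e, f, by simp [(hr e he).2], hf, hfe.symm⟩
        · obtain ⟨f, hf⟩ : (att G K y').Nonempty := by
            rcases Finset.mem_union.1 hy' with hy2 | hy2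
            · obtain ⟨f, hf, rfl⟩ := Finset.mem_image.1 hy2
              simp [(hr f hf).2]
            · exact Finset.card_pos.1 (by have := (Finset.mem_filter.1 (hQ hy2)).2; omega)
          obtain ⟨e, he, hef⟩ := Finset.exists_mem_ne
            (show 1 < (att G K y).card from (Finset.mem_filter.1 (hQ hy1)).2) f
          exact ⟨e, f, he, hf, hef⟩
      exact ⟨h.no_edge (by omega) (by omega) (hsub hy) (hsub hy') he hf hef, e, he, f, hf, hef⟩
    rw [Finset.sum_union hdisj, Finset.sum_image hinj] at h1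
    have h2 : ∑ _e ∈ E, 2 ≤ ∑ e ∈ E, alpha G (unit G X K (r e)) := Finset.sum_le_sum fun e he =>
      h.two_le_unit (by rw [(hr e he).2]; simp; omega) (hr e he).1
    have h3 : ∑ _x ∈ Q, 1 ≤ ∑ x ∈ Q, alpha G (unit G X K x) := Finset.sum_le_sum fun x _ =>
      one_le_alpha (Finset.insert_nonempty _ _)
    simp only [Finset.sum_const, smul_eq_mul, mul_one] at h2 h3
    omega
  by_cases hM1 : M.card ≤ 1
  · have := main K ∅ Finset.Subset.rfl (Finset.empty_subset _) (fun e he => ?_) (by simp)
    · rw [h.card] at this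
      omega
    have h1 := h.nb_card he
    obtain ⟨y, hy, hyM⟩ : ∃ y ∈ nb G e (X \ K), y ∉ M := by
      by_contra hn
      push Not at hn
      have := Finset.card_le_card (fun y hy => hn y hy : nb G e (X \ K) ⊆ M)
      omega
    rw [mem_nb] at hy
    refine ⟨y, hy.1, ?_⟩
    have h2 : e ∈ att G K y := mem_att.2 ⟨he, hy.2.symm⟩
    refine (Finset.eq_singleton_iff_unique_mem.2 ⟨h2, fun f hf => ?_⟩)
    by_contra hne
    exact hyM (Finset.mem_filter.2 ⟨hy.1, Finset.one_lt_card.2 ⟨f, hf, e, h2, hne⟩⟩)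
  obtain ⟨x, hx, y, hy, hxy⟩ := Finset.one_lt_card.1 (not_le.1 hM1)
  have hxW := Finset.mem_filter.1 hx
  have hyW := Finset.mem_filter.1 hy
  obtain ⟨heq, hc2⟩ := h.same_pair (by omega) hm hxW.1 hyW.1 hxy hxW.2 hyW.2
  have := main (K \ att G K x) {x, y} Finset.sdiff_subset
    (by simp [Finset.insert_subset_iff, hx, hy]) (fun e he => ?_) ?_
  · have e1 : (K \ att G K x).card = K.card - (att G K x).card :=
      Finset.card_sdiff_of_subset (Finset.filter_subset _ _)
    rw [e1, h.card, hc2, Finset.card_pair hxy] at this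
    omega
  · rw [Finset.mem_sdiff] at he
    obtain ⟨z, hz⟩ := Finset.card_pos.1 (by have := h.nb_card he.1; omega :
      0 < (nb G e (X \ K)).card)
    rw [mem_nb] at hz
    have h2 : e ∈ att G K z := mem_att.2 ⟨he.1, hz.2.symm⟩
    refine ⟨z, hz.1, Finset.eq_singleton_iff_unique_mem.2 ⟨h2, fun f hf => ?_⟩⟩
    by_contra hne
    have h2z : 2 ≤ (att G K z).card := Finset.one_lt_card.2 ⟨f, hf, e, h2, hne⟩
    rcases eq_or_ne z x with rfl | hzx
    · exact he.2 h2
    · exact he.2 ((h.same_pair (by omega) hm hz.1 hxW.1 hzx h2z hxW.2).1 ▸ h2)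
  · intro p hp q hq hpq
    simp only [Finset.mem_insert, Finset.mem_singleton] at hp hq
    obtain ⟨a, ha, b, hb, hab⟩ := Finset.one_lt_card.1 (show 1 < (att G K x).card by omega)
    rcases hp with rfl | rfl <;> rcases hq with rfl | rfl
    · exact absurd rfl hpq
    · exact h.no_edge (by omega) (by omega) hxW.1 hyW.1 ha (heq ▸ hb) hab
    · exact h.no_edge (by omega) (by omega) hyW.1 hxW.1 (heq ▸ ha) hb hab
    · exact absurd rfl hpq

end Vale.Agent.P048.Full.Small
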