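import Vale.Agent.P048.Full.Small.Tools
import Vale.Agent.P048.Full.ChordCycle
import Vale.Agent.P048.Full.Engine

/-!
P048, small cycle lengths: no counterexample without a clique on four vertices, by the first
layers around a vertex.
-/

open scoped Classical

namespace Vale.Agent.P048.Full.Small

universe u

variable {V : Type u} {G : SimpleGraph V}

lemma match4 {ab ac ae bc be ce : Prop} (t1 : ab ∨ ac ∨ bc) (t2 : ab ∨ ae ∨ be)
    (t3 : ac ∨ ae ∨ ce) (t4 : bc ∨ be ∨ ce) (n1 : ab → ac → ¬ bc) (n2 : ab → ae → ¬ be)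
    (n3 : ac → ae → ¬ ce) (n4 : bc → be → ¬ ce) (e1 : ¬ (ab ∧ ce)) (e2 : ¬ (ac ∧ be))
    (e3 : ¬ (ae ∧ bc)) : False := by
  by_cases h1 : ab <;> by_cases h2 : ac <;> by_cases h3 : ae <;> simp_all

/-- Seven vertices with no four mutually adjacent and no three independent span a six-cycle. -/
lemma six_of_seven {Y : Finset V} (h : CF G Y 4) (ha : alpha G Y ≤ 2) (h7 : 7 ≤ Y.card) :
    HasCyc G 6 := by
  obtain ⟨Z, hZ, hZc⟩ := Finset.exists_subset_card_eq h7
  replace h := h.mono hZ
  replace ha : alpha G Z ≤ 2 := (alpha_mono hZ).trans ha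
  obtain ⟨v, hv, hvd⟩ : ∃ v ∈ Z, (nb G v Z).card ≠ 3 := by
    by_contra hn
    push Not at hn
    let H : SimpleGraph {x // x ∈ Z} := G.comap Subtype.val
    have hd : ∀ v, H.degree v = 3 := by
      intro v
      rw [← hn v.1 v.2, ← SimpleGraph.card_neighborFinset_eq_degree,
        ← Finset.card_map (Function.Embedding.subtype _)]
      congr 1
      ext x
      simp [H, nb, SimpleGraph.mem_neighborFinset]
      exact ⟨fun ⟨a, b⟩ => ⟨b, a⟩, fun ⟨a, b⟩ => ⟨b, a⟩⟩
    have h5 := H.sum_degrees_eq_twice_card_edges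
    simp only [hd, Finset.sum_const, Finset.card_univ, Fintype.card_coe, hZc, smul_eq_mul] at h5
    omega
  set N := nb G v Z with hN
  set M := Z.filter (fun y => y ≠ v ∧ ¬ G.Adj v y) with hM
  have hNZ : N ⊆ Z := Finset.filter_subset _ _
  have hvN : ∀ x ∈ N, G.Adj v x := fun x hx => (mem_nb.1 hx).2
  have hN3 : CF G N 3 := by
    intro K hK hc
    have hvK : v ∉ K := fun h => (hvN v (hK h)).ne rfl
    have := h (insert v K) (Finset.insert_subset hv (hK.trans hNZ)) (by
      rw [Finset.coe_insert]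
      exact hc.insert fun x hx _ => hvN x (hK hx))
    rw [Finset.card_insert_of_notMem hvK] at this
    omega
  have haN : alpha G N ≤ 2 := (alpha_mono hNZ).trans ha
  have hMa : alpha G M + 1 ≤ 2 := alpha_nonnb ha hv
  have h1 : Z.card ≤ 1 + N.card + M.card := card_le_nb_add
  have h2 := r33 hN3 haN
  have h3 : M.card < 4 := card_le_of_clique (h.mono (Finset.filter_subset _ _ : M ⊆ Z)) (Nat.le_of_succ_le_succ hMa : alpha G M ≤ 1)
  have three : ∀ x y z, x ∈ N → y ∈ N → z ∈ N → x ≠ y → x ≠ z → y ≠ z →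
      G.Adj x y ∨ G.Adj x z ∨ G.Adj y z :=
    fun x y z hx hy hz => adj_of_three haN hx hy hz
  obtain h4 | h5 : N.card = 4 ∨ N.card = 5 := by omega
  · -- two non-neighbours, joined
    have hMc : 2 ≤ M.card := by omega
    obtain ⟨p, hp, q, hq, hpq⟩ := Finset.one_lt_card.1 hMc
    have hpqA : G.Adj p q := clique_of_alpha_le_one (by omega : alpha G M ≤ 1) hp hq hpq
    have hMf : ∀ x ∈ M, x ∈ Z ∧ x ≠ v ∧ ¬ G.Adj v x := fun x hx => by
      simpa [hM] using hx
    obtain ⟨a, b, c, e, he⟩ := Finset.card_eq_four.1 h4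
    obtain ⟨hab', hac', hae', hbc', hbe', hce', hNeq⟩ := he
    have hmem : a ∈ N ∧ b ∈ N ∧ c ∈ N ∧ e ∈ N := by simp [hNeq]
    -- two disjoint edges with both ends pairwise non-adjacent
    obtain ⟨a, b, c, e, ha', hb', hc', he', hab, hce, hnac, hnbe⟩ :
        ∃ a b c e, a ∈ N ∧ b ∈ N ∧ c ∈ N ∧ e ∈ N ∧ G.Adj a b ∧ G.Adj c e ∧
          (¬ G.Adj a c ∧ a ≠ c) ∧ (¬ G.Adj b e ∧ b ≠ e) := by
      have fin : ∀ a b c e, a ∈ N → b ∈ N → c ∈ N → e ∈ N → a ≠ c → a ≠ e → b ≠ c → b ≠ e →
          G.Adj a b → G.Adj c e → ∃ a b c e, a ∈ N ∧ b ∈ N ∧ c ∈ N ∧ e ∈ N ∧ G.Adj a b ∧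
            G.Adj c e ∧ (¬ G.Adj a c ∧ a ≠ c) ∧ (¬ G.Adj b e ∧ b ≠ e) := by
        intro a b c e ha hb hc he hac hae hbc hbe hab hce
        by_cases h6 : ¬ G.Adj a c ∧ ¬ G.Adj b e
        · exact ⟨a, b, c, e, ha, hb, hc, he, hab, hce, ⟨h6.1, hac⟩, h6.2, hbe⟩
        · refine ⟨a, b, e, c, ha, hb, he, hc, hab, hce.symm, ⟨fun h7 => ?_, hae⟩, fun h7 => ?_, hbc⟩
          · rcases not_and_or.1 h6 with h8 | h8 <;> rw [not_not] at h8
            · exact hN3.not_tri ha hc he h8 h7 hce
            · exact hN3.not_tri he hb ha h8.symm h7.symm hab.symm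
          · rcases not_and_or.1 h6 with h8 | h8 <;> rw [not_not] at h8
            · exact hN3.not_tri hc ha hb h8.symm h7.symm hab
            · exact hN3.not_tri hb he hc h8 h7 hce.symm
      obtain ⟨x1, x2, x3, x4⟩ := hmem
      by_cases e1 : G.Adj a b ∧ G.Adj c e
      · exact fin a b c e x1 x2 x3 x4 hac' hae' hbc' hbe' e1.1 e1.2
      by_cases e2 : G.Adj a c ∧ G.Adj b e
      · exact fin a c b e x1 x3 x2 x4 hab' hae' hbc'.symm hce' e2.1 e2.2
      by_cases e3 : G.Adj a e ∧ G.Adj b c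
      · exact fin a e b c x1 x4 x2 x3 hab' hac' hbe'.symm hce'.symm e3.1 e3.2
      exfalso
      have t1 := three a b c x1 x2 x3 hab' hac' hbc'
      have t2 := three a b e x1 x2 x4 hab' hae' hbe'
      have t3 := three a c e x1 x3 x4 hac' hae' hce'
      have t4 := three b c e x2 x3 x4 hbc' hbe' hce'
      exact match4 t1 t2 t3 t4 (hN3.not_tri x1 x2 x3) (hN3.not_tri x1 x2 x4)
        (hN3.not_tri x1 x3 x4) (hN3.not_tri x2 x3 x4) e1 e2 e3
    have hitp : ∀ p ∈ M, (G.Adj p a ∨ G.Adj p c) ∧ (G.Adj p b ∨ G.Adj p e) := by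
      intro p hp
      have hne : ∀ x ∈ N, p ≠ x := fun x hx e => (hMf p hp).2.2 (e ▸ hvN x hx)
      constructor
      · rcases adj_of_three ha (hMf p hp).1 (hNZ ha') (hNZ hc') (hne a ha') (hne c hc') hnac.2
          with h | h | h
        · exact Or.inl h
        · exact Or.inr h
        · exact absurd h hnac.1
      · rcases adj_of_three ha (hMf p hp).1 (hNZ hb') (hNZ he') (hne b hb') (hne e he') hnbe.2
          with h | h | h
        · exact Or.inl h
        · exact Or.inr h
        · exact absurd h hnbe.1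
    have cross : ∀ x x' y, x ∈ N → x' ∈ N → y ∈ N → G.Adj x x' → y ≠ x → y ≠ x' →
        G.Adj p x → G.Adj q y → HasCyc G 6 := by
      intro x x' y hx hx' hy hxx hyx hyx' hpx hqy
      have hne : ∀ z ∈ N, p ≠ z ∧ q ≠ z := fun z hz =>
        ⟨fun e => (hMf p hp).2.2 (e ▸ hvN z hz), fun e => (hMf q hq).2.2 (e ▸ hvN z hz)⟩
      refine hasCyc_of_list v [x', x, p, q, y] ?_ ?_ ?_
      · simp [(hvN x' hx').ne, (hvN x hx).ne, (hMf p hp).2.1.symm, (hMf q hq).2.1.symm,
          (hvN y hy).ne, hxx.ne', (hne x' hx').1.symm, (hne x' hx').2.symm, hyx'.symm,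
          (hne x hx).1.symm, (hne x hx).2.symm, hyx.symm, hpq, (hne y hy).1, (hne y hy).2]
      · simp [hvN x' hx', hxx.symm, hpx.symm, hpqA, hqy]
      · simpa using (hvN y hy).symm
    have hae : a ≠ e := fun h => hnac.1 (h ▸ hce.symm)
    have hbc : b ≠ c := fun h => hnac.1 (h ▸ hab)
    have k4 : ∀ x y, x ∈ N → y ∈ N → G.Adj x y → G.Adj p x → G.Adj p y → G.Adj q x →
        G.Adj q y → False := by
      intro x y hx hy hxy h1 h2 h3 h4
      have hsub : ({p, q, x, y} : Finset V) ⊆ Z := by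
        simp [Finset.insert_subset_iff, (hMf p hp).1, (hMf q hq).1, hNZ hx, hNZ hy]
      have := h _ hsub (by
        simp only [SimpleGraph.IsClique, Finset.coe_insert, Finset.coe_singleton, Set.pairwise_insert,
          Set.pairwise_singleton, Set.mem_insert_iff, Set.mem_singleton_iff]
        simp [hxy, hxy.symm, h1, h1.symm, h2, h2.symm, h3, h3.symm, h4, h4.symm, hpqA, hpqA.symm])
      rw [Finset.card_eq_four.2 ⟨p, q, x, y, hpq, h1.ne, h2.ne, h3.ne, h4.ne, hxy.ne, rfl⟩] at this
      omega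
    rcases hitp p hp with ⟨p1 | p1, p2 | p2⟩ <;> rcases hitp q hq with ⟨q1 | q1, q2 | q2⟩ <;>
      first
        | exact (k4 _ _ ha' hb' hab p1 p2 q1 q2).elim
        | exact (k4 _ _ hc' he' hce p1 p2 q1 q2).elim
        | exact cross a b c ha' hb' hc' hab hnac.2.symm hbc.symm p1 q1
        | exact cross a b e ha' hb' he' hab hae.symm hnbe.2.symm p1 q2
        | exact cross b a c hb' ha' hc' hab.symm hbc.symm hnac.2.symm p2 q1
        | exact cross b a e hb' ha' he' hab.symm hnbe.2.symm hae.symm p2 q2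
        | exact cross c e a hc' he' ha' hce hnac.2 hae p1 q1
        | exact cross c e b hc' he' hb' hce hbc hnbe.2 p1 q2
        | exact cross e c a he' hc' ha' hce.symm hae hnac.2 p2 q1
        | exact cross e c b he' hc' hb' hce.symm hnbe.2 hbc p2 q2
  · -- the neighbourhood is a five-cycle
    have hdeg : ∀ x ∈ N, (nb G x N).card = 2 := by
      intro x hx
      have e1 := card_le_nb_add (G := G) (X := N) (v := x)
      have e2 := nb_le_alpha hN3 hx
      have e3 := alpha_nonnb haN hx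
      have e4 := card_le_of_clique (hN3.mono (Finset.filter_subset
        (fun y => y ≠ x ∧ ¬ G.Adj x y) N)) (by omega)
      omega
    obtain ⟨x, hx⟩ := Finset.card_pos.1 (by omega : 0 < N.card)
    obtain ⟨y, z, hyz, hnx⟩ := Finset.card_eq_two.1 (hdeg x hx)
    have hy : y ∈ N ∧ G.Adj x y := mem_nb.1 (by rw [hnx]; simp)
    have hz : z ∈ N ∧ G.Adj x z := mem_nb.1 (by rw [hnx]; simp)
    have hnyz : ¬ G.Adj y z := hN3.not_tri hx hy.1 hz.1 hy.2 hz.2
    obtain ⟨w, hw, hwx⟩ := Finset.exists_mem_ne (by rw [hdeg y hy.1]; omega : 1 < (nb G y N).card) x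
    obtain ⟨u, hu, hux⟩ := Finset.exists_mem_ne (by rw [hdeg z hz.1]; omega : 1 < (nb G z N).card) x
    rw [mem_nb] at hw hu
    have hwu : w ≠ u := by
      rintro rfl
      obtain ⟨r, hr, hr'⟩ : ∃ r ∈ N, r ∉ ({x, y, z, w} : Finset V) := by
        by_contra hn
        push Not at hn
        have := (Finset.card_le_card (fun r hr => hn r hr : N ⊆ {x, y, z, w})).trans
          Finset.card_le_four
        omega
      simp only [Finset.mem_insert, Finset.mem_singleton, not_or] at hr'
      rcases three r x w hr hx hw.1 hr'.1 hr'.2.2.2 hwx.symm with h' | h' | h'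
      · have : r ∈ nb G x N := mem_nb.2 ⟨hr, h'.symm⟩
        rw [hnx] at this
        simp [hr'.2.1, hr'.2.2.1] at this
      · have hsub : ({y, z, r} : Finset V) ⊆ nb G w N := by
          simp [Finset.insert_subset_iff, mem_nb, hy.1, hz.1, hr, hw.2.symm, hu.2.symm, h'.symm]
        have := Finset.card_le_card hsub
        rw [hdeg w hw.1, Finset.card_eq_three.2 ⟨y, z, r, hyz, hr'.2.1 ∘ Eq.symm,
          hr'.2.2.1 ∘ Eq.symm, rfl⟩] at this
        omega
      · have : w ∈ nb G x N := mem_nb.2 ⟨hw.1, h'⟩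
        rw [hnx] at this
        simp [hw.2.ne', hu.2.ne'] at this
    refine hasCyc_of_list v [u, z, x, y, w] ?_ ?_ ?_
    · have e1 : u ≠ y := fun e => hnyz (e ▸ hu.2).symm
      have e2 : z ≠ w := fun e => hnyz (e ▸ hw.2)
      simp [(hvN u hu.1).ne, (hvN z hz.1).ne, (hvN x hx).ne, (hvN y hy.1).ne, (hvN w hw.1).ne,
        hu.2.ne', hux, e1, hwu.symm, hz.2.ne', hyz.symm, e2, hy.2.ne, hwx.symm, hw.2.ne]
    · simp [hvN u hu.1, hu.2.symm, hz.2.symm, hy.2, hw.2]
    · simpa using (hvN w hw.1).symm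

/-- Without cliques on four vertices the layers force the four-regular case of `m = 5`. -/
lemma layer_step {m k : ℕ} {X : Finset V} (hm5 : 5 ≤ m) (hm7 : m ≤ 7) (hk3 : 3 ≤ k)
    (hk : k + 1 ≤ m) (hC : Cx G m k X) (hX : X.card = (m - 1) * k + 1) (h4 : CF G X 4)
    {v : V} (hv : v ∈ X) :
    m = 5 ∧ k = 4 ∧ (nb G v X).card = 4 ∧ alpha G (nb G v X) ≤ 2 := by
  obtain ⟨R, hR⟩ : ∃ R, R = (m - 1) / 2 := ⟨_, rfl⟩
  obtain ⟨lev, hL⟩ := exists_lay G hv R
  have hv0 := (hL.root v hL.mem).2 rfl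
  set L1 := layer X lev 1 with hL1
  set L2 := layer X lev 2 with hL2
  set L3 := layer X lev 3 with hL3
  set F2 := far X lev 2 with hF2
  set F3 := far X lev 3 with hF3
  have hsub : ∀ i, layer X lev i ⊆ X := fun i => Finset.filter_subset _ _
  have hadj : ∀ x ∈ L1, G.Adj v x := by
    intro x hx
    simp only [hL1, layer, Finset.mem_filter] at hx
    obtain ⟨y, hy, hxy, he⟩ := hL.pred x hx.1 (by omega) (by omega)
    rw [(hL.root y hy).1 (by omega)] at hxy
    exact hxy.symm
  have hL1nb : L1 = nb G v X := by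
    ext x
    refine ⟨fun hx => mem_nb.2 ⟨hsub 1 hx, hadj x hx⟩, fun hx => ?_⟩
    rw [mem_nb] at hx
    have h1 := hL.edge v hv x hx.1 hx.2 (by omega)
    have h2 : lev x ≠ 0 := fun h => hx.2.ne ((hL.root x hx.1).1 h).symm
    simp only [hL1, layer, Finset.mem_filter]
    exact ⟨hx.1, by omega⟩
  have hd := hC.deg hv
  rw [← hL1nb] at hd ⊢
  have h13 : CF G L1 3 := by
    intro K hK hc
    have hvK : v ∉ K := fun h => (hadj v (hK h)).ne rfl
    have := h4 (insert v K) (Finset.insert_subset hv (hK.trans (hsub 1))) (by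
      rw [Finset.coe_insert]
      exact hc.insert fun x hx _ => hadj x (hK hx))
    rw [Finset.card_insert_of_notMem hvK] at this
    omega
  have hA : alpha G L1 + alpha G F2 ≤ k := by
    refine (alpha_add (hsub 1) (Finset.filter_subset _ _) ?_ ?_).trans hC.alp
    · rw [Finset.disjoint_left]
      intro x hx hx'
      simp only [hL1, hF2, layer, far, Finset.mem_filter] at hx hx'
      omega
    · intro x hx y hy
      simp only [hL1, hF2, layer, far, Finset.mem_filter] at hx hy
      exact hL.anti (ρ := 1) (by omega) hx.1 hy.1 (by omega) (by omega)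
  have hB : 1 + (alpha G L2 + alpha G F3) ≤ k := by
    have h1 : alpha G L2 + alpha G F3 ≤ alpha G (L2 ∪ F3) := by
      refine alpha_add Finset.subset_union_left Finset.subset_union_right ?_ ?_
      · rw [Finset.disjoint_left]
        intro x hx hx'
        simp only [hL2, hF3, layer, far, Finset.mem_filter] at hx hx'
        omega
      · intro x hx y hy
        simp only [hL2, hF3, layer, far, Finset.mem_filter] at hx hy
        exact hL.anti (ρ := 2) (by omega) hx.1 hy.1 (by omega) (by omega)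
    have h2 : alpha G (L2 ∪ F3) ≤ alpha G (X.filter fun y => y ≠ v ∧ ¬ G.Adj v y) := by
      refine alpha_mono fun x hx => ?_
      have hx' : x ∈ X ∧ 2 ≤ lev x := by
        simp only [hL2, hF3, layer, far, Finset.mem_union, Finset.mem_filter] at hx
        rcases hx with h | h <;> exact ⟨h.1, by omega⟩
      refine Finset.mem_filter.2 ⟨hx'.1, fun e => by rw [e] at hx'; omega, ?_⟩
      exact hL.anti (ρ := 0) (Nat.zero_le _) hv hx'.1 (by omega) (by omega)
    have := alpha_nonnb hC.alp hv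
    omega
  have hsplit : X.card = 1 + L1.card + L2.card + F2.card ∧ F2.card = L3.card + F3.card := by
    have a : X.card = 1 + (0 + L1.card + L2.card) + F2.card := hL.card_split 2
    have b : X.card = 1 + (0 + L1.card + L2.card + L3.card) + F3.card := hL.card_split 3
    omega
  have hcount := (hL.count hC (ρ := 1) le_rfl (by omega)).1
  simp only [ssum, bsum, Nat.zero_add] at hcount
  rw [← hL1, show layer X lev (1 + 1) = L2 from rfl] at hcount
  have hF : ∀ F, F ⊆ X → (alpha G F = 0 → F.card = 0) ∧ (alpha G F ≤ 1 → F.card ≤ 3) ∧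
      (alpha G F ≤ 2 → F.card ≤ 8 ∧ (m = 6 → F.card ≤ 6)) := by
    intro F hF
    refine ⟨fun h0 => ?_, fun h1 => ?_, fun h2 => ⟨r43 (h4.mono hF) h2, fun h6 => ?_⟩⟩
    · by_contra hne
      have := one_le_alpha (G := G) (Finset.card_pos.1 (Nat.pos_of_ne_zero hne))
      omega
    · have := card_le_of_clique (h4.mono hF) h1
      omega
    · by_contra hbig
      have := six_of_seven (h4.mono hF) h2 (by omega)
      exact hC.noc (h6 ▸ this)
  have hF2b := hF F2 (Finset.filter_subset _ _)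
  have hF3b := hF F3 (Finset.filter_subset _ _)
  have hF3le : alpha G F3 ≤ alpha G F2 := alpha_mono fun x hx => by
    simp only [hF2, hF3, far, Finset.mem_filter] at hx ⊢
    exact ⟨hx.1, by omega⟩
  have hL3le : alpha G L3 ≤ alpha G F2 := alpha_mono fun x hx => by
    simp only [hF2, hL3, layer, far, Finset.mem_filter] at hx ⊢
    exact ⟨hx.1, by omega⟩
  have hunit : ∀ i, 1 ≤ i → i ≤ R →
      2 * (layer X lev i).card ≤ 6 * alpha G (layer X lev i) := by
    intro i hi hiR
    refine units V G _ 6 le_rfl (fun ℓ t f e1 e2 e3 e4 e5 e6 => ?_) fun K hK hcl =>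
      h4 K (hK.trans (hsub i)) hcl
    have := chordCycle V G X v R lev m i ℓ t f hC.noc hL hi (by omega) (by omega)
      e1 e2 e3 e4 e5 e6
    omega
  have hu2 := hunit 2 (by omega) (by omega)
  rw [← hL2] at hu2
  have path1 : m ≤ 6 → L1.card ≤ 2 * alpha G L1 := by
    intro hm6
    refine tf_half h13 fun l hnd hl hch => ?_
    by_contra hlen
    have ht : (l.take (m - 1)).length = m - 1 := by simp; omega
    have hmem : ∀ x ∈ l.take (m - 1), G.Adj v x := fun x hx =>
      hadj x (hl x (List.mem_of_mem_take hx))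
    obtain ⟨a, l', hl'⟩ : ∃ a l', l.take (m - 1) = a :: l' :=
      List.exists_cons_of_ne_nil (fun e => by rw [e] at ht; simp at ht; omega)
    apply hC.noc
    have := hasCyc_of_list (G := G) v (l.take (m - 1)) ?_ ?_ ?_
    · rwa [ht, show m - 1 + 1 = m by omega] at this
    · rw [List.nodup_cons]
      exact ⟨fun h => (hmem v h).ne rfl, hnd.sublist (List.take_sublist _ _)⟩
    · have hct := hch.take (m - 1)
      rw [hl'] at hct hmem ⊢
      rw [List.isChain_cons_cons]
      exact ⟨hmem a (by simp), hct⟩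
    · rw [hl'] at hmem ⊢
      rw [List.getLast_cons (by simp)]
      exact (hmem _ (List.getLast_mem _)).symm
  obtain rfl | rfl | rfl : m = 5 ∨ m = 6 ∨ m = 7 := by omega
  · -- `m = 5`
    have hp := path1 (by omega)
    have par : ∀ x ∈ L2, ∃ p ∈ L1, G.Adj x p := by
      intro x hx
      simp only [hL2, layer, Finset.mem_filter] at hx
      obtain ⟨p, hp, hxp, he⟩ := hL.pred x hx.1 (by omega) (by omega)
      exact ⟨p, by simp only [hL1, layer, Finset.mem_filter]; exact ⟨hp, by omega⟩, hxp⟩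
    have d12 : ∀ x ∈ L2, ∀ p ∈ L1, x ≠ p ∧ v ≠ x := by
      intro x hx p hp
      simp only [hL1, hL2, layer, Finset.mem_filter] at hx hp
      exact ⟨fun e => by rw [e] at hx; omega, fun e => by rw [← e] at hx; omega⟩
    have same : ∀ x y, x ∈ L2 → y ∈ L2 → G.Adj x y → ∀ p q, p ∈ L1 → q ∈ L1 → G.Adj x p →
        G.Adj y q → p = q := by
      intro x y hx hy hxy p q hp hq hxp hyq
      by_contra hpq
      refine hC.noc (hasCyc_of_list v [p, x, y, q] ?_ ?_ ?_)
      · simp [(hadj p hp).ne, (hadj q hq).ne, (d12 x hx p hp).2, (d12 y hy p hp).2,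
          hxp.ne', (d12 y hy p hp).1.symm, hpq, hxy.ne, (d12 x hx q hq).1, hyq.ne]
      · simp [hadj p hp, hxp.symm, hxy, hyq]
      · simpa using (hadj q hq).symm
    have h23 : CF G L2 3 := by
      intro K hK hc
      by_contra hbig
      obtain ⟨T, hT, hTc⟩ := Finset.exists_subset_card_eq (not_lt.1 hbig)
      obtain ⟨a, b, c, hab, hac, hbc, rfl⟩ := Finset.card_eq_three.1 hTc
      simp only [Finset.insert_subset_iff, Finset.singleton_subset_iff] at hT
      obtain ⟨ha, hb, hc'⟩ := hT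
      obtain ⟨p, hp, hap⟩ := par a (hK ha)
      obtain ⟨q, hq, hbq⟩ := par b (hK hb)
      obtain ⟨r, hr, hcr⟩ := par c (hK hc')
      have e1 := same a b (hK ha) (hK hb) (hc ha hb hab) p q hp hq hap hbq
      have e2 := same a c (hK ha) (hK hc') (hc ha hc' hac) p r hp hr hap hcr
      subst e1 e2
      have := h4 {p, a, b, c} (by
        simp [Finset.insert_subset_iff, hsub 1 hp, hsub 2 (hK ha), hsub 2 (hK hb),
          hsub 2 (hK hc')]) (by
        simp only [SimpleGraph.IsClique, Finset.coe_insert, Finset.coe_singleton,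
          Set.pairwise_insert, Set.pairwise_singleton, Set.mem_insert_iff, Set.mem_singleton_iff]
        simp [hap, hap.symm, hbq, hbq.symm, hcr, hcr.symm, hc ha hb hab, (hc ha hb hab).symm,
          hc ha hc' hac, (hc ha hc' hac).symm, hc hb hc' hbc, (hc hb hc' hbc).symm])
      rw [Finset.card_eq_four.2 ⟨p, a, b, c, hap.ne', hbq.ne', hcr.ne', hab, hac, hbc, rfl⟩] at this
      omega
    have hp2 : L2.card ≤ 2 * alpha G L2 := by
      refine tf_half h23 fun l hnd hl hch => ?_
      by_contra hlen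
      match l, hnd, hl, hch, hlen with
      | [], _, _, _, h => simp at h
      | [_], _, _, _, h => simp at h
      | [_, _], _, _, _, h => simp at h
      | [_, _, _], _, _, _, h => simp at h
      | a :: b :: c :: e :: rest, hnd, hl, hch, _ =>
        simp only [List.mem_cons, forall_eq_or_imp] at hl
        obtain ⟨ha, hb, hc, he, -⟩ := hl
        simp only [List.isChain_cons_cons] at hch
        obtain ⟨hab, hbc, hce, -⟩ := hch
        obtain ⟨p, hp, hap⟩ := par a ha
        obtain ⟨q, hq, hbq⟩ := par b hb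
        obtain ⟨r, hr, hcr⟩ := par c hc
        obtain ⟨s, hs, hes⟩ := par e he
        have e1 := same a b ha hb hab p q hp hq hap hbq
        have e2 := same b c hb hc hbc q r hq hr hbq hcr
        have e3 := same c e hc he hce r s hr hs hcr hes
        subst e1 e2 e3
        refine hC.noc (hasCyc_of_list p [a, b, c, e] ?_ ?_ ?_)
        · simp only [List.nodup_cons, List.mem_cons, not_or] at hnd
          simp [hap.ne', hbq.ne', hcr.ne', hes.ne', hab.ne, hbc.ne, hce.ne, hnd.1.2.1,
            hnd.1.2.2.1, hnd.2.1.2.1]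
        · simp [hap.symm, hab, hbc, hce]
        · simpa using hes
    refine ⟨rfl, ?_⟩
    omega
  · have hp := path1 (by omega)
    omega
  · have hu1 := hunit 1 (by omega) (by omega)
    rw [← hL1] at hu1
    have hu3 := hunit 3 (by omega) (by omega)
    rw [← hL3] at hu3
    have h33 : 3 ≤ alpha G L1 := by
      by_contra hlt
      have := r33 h13 (by omega)
      omega
    have h34 : alpha G L1 ≤ 3 → L1.card ≤ 8 := r34 h13
    omega

/-- In the four-regular case every vertex lies in exactly two triangles. -/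
lemma two_tri {X : Finset V} (hC : Cx G 5 4 X) (h4 : CF G X 4) {v : V} (hv : v ∈ X)
    (hd : (nb G v X).card = 4) (ha : alpha G (nb G v X) ≤ 2) (T : Finset (Finset V))
    (hT : T = (X.powersetCard 3).filter (fun t : Finset V => G.IsClique (t : Set V))) :
    (T.filter fun t => v ∈ t).card = 2 := by
  have hN : ∀ x ∈ nb G v X, x ∈ X ∧ G.Adj v x := fun x hx => mem_nb.1 hx
  have h3 : ∀ x y, x ∈ nb G v X → y ∈ nb G v X → G.Adj x y → ∀ z ∈ nb G v X, z ≠ y →
      ¬ G.Adj x z := by
    intro x y hx hy hxy z hz hzy hxz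
    have htri : ∀ p q r, p ∈ nb G v X → q ∈ nb G v X → r ∈ nb G v X → G.Adj p q → G.Adj p r →
        G.Adj q r → False := by
      intro p q r hp hq hr e1 e2 e3
      have := h4 {v, p, q, r} (by
        simp [Finset.insert_subset_iff, hv, (hN p hp).1, (hN q hq).1, (hN r hr).1]) (by
        simp only [SimpleGraph.IsClique, Finset.coe_insert, Finset.coe_singleton,
          Set.pairwise_insert, Set.pairwise_singleton, Set.mem_insert_iff, Set.mem_singleton_iff]
        simp [(hN p hp).2, (hN p hp).2.symm, (hN q hq).2, (hN q hq).2.symm, (hN r hr).2,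
          (hN r hr).2.symm, e1, e1.symm, e2, e2.symm, e3, e3.symm])
      rw [Finset.card_eq_four.2 ⟨v, p, q, r, (hN p hp).2.ne, (hN q hq).2.ne, (hN r hr).2.ne,
        e1.ne, e2.ne, e3.ne, rfl⟩] at this
      omega
    obtain ⟨w, hw, hw'⟩ : ∃ w ∈ nb G v X, w ∉ ({x, y, z} : Finset V) := by
      by_contra hn
      push Not at hn
      have := (Finset.card_le_card (fun r hr => hn r hr : nb G v X ⊆ {x, y, z})).trans
        Finset.card_le_three
      omega
    simp only [Finset.mem_insert, Finset.mem_singleton, not_or] at hw'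
    rcases adj_of_three ha hy hz hw hzy.symm (Ne.symm hw'.2.1) (Ne.symm hw'.2.2) with h | h | h
    · exact htri x y z hx hy hz hxy hxz h
    · refine hC.noc (hasCyc_of_list v [w, y, x, z] ?_ ?_ ?_)
      · simp [(hN w hw).2.ne, (hN y hy).2.ne, (hN x hx).2.ne, (hN z hz).2.ne, hw'.1, hw'.2.1,
          hw'.2.2, hxy.ne', hzy.symm, hxz.ne]
      · simp [(hN w hw).2, h.symm, hxy.symm, hxz]
      · simpa using (hN z hz).2.symm
    · refine hC.noc (hasCyc_of_list v [w, z, x, y] ?_ ?_ ?_)
      · simp [(hN w hw).2.ne, (hN y hy).2.ne, (hN x hx).2.ne, (hN z hz).2.ne, hw'.1, hw'.2.1,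
          hw'.2.2, hxy.ne, hzy, hxz.ne']
      · simp [(hN w hw).2, h.symm, hxz.symm, hxy]
      · simpa using (hN y hy).2.symm
  obtain ⟨a, b, c, e, hab, hac, hae, hbc, hbe, hce, hNeq⟩ := Finset.card_eq_four.1 hd
  have ma : a ∈ nb G v X ∧ b ∈ nb G v X ∧ c ∈ nb G v X ∧ e ∈ nb G v X := by simp [hNeq]
  obtain ⟨ma, mb, mc, me⟩ := ma
  -- the neighbourhood spans two disjoint edges only
  obtain ⟨p, q, r, s, hp, hq, hr, hs, hpq, hrs, hpr, hps, hqr, hqs, hall⟩ :
      ∃ p q r s, p ∈ nb G v X ∧ q ∈ nb G v X ∧ r ∈ nb G v X ∧ s ∈ nb G v X ∧ G.Adj p q ∧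
        G.Adj r s ∧ p ≠ r ∧ p ≠ s ∧ q ≠ r ∧ q ≠ s ∧
        ∀ x ∈ nb G v X, x = p ∨ x = q ∨ x = r ∨ x = s := by
    have t1 := adj_of_three ha ma mb mc hab hac hbc
    have t2 := adj_of_three ha ma mb me hab hae hbe
    have t3 := adj_of_three ha ma mc me hac hae hce
    have t4 := adj_of_three ha mb mc me hbc hbe hce
    by_cases e1 : G.Adj a b ∧ G.Adj c e
    · exact ⟨a, b, c, e, ma, mb, mc, me, e1.1, e1.2, hac, hae, hbc, hbe,
        fun x hx => by simpa [hNeq] using hx⟩
    by_cases e2 : G.Adj a c ∧ G.Adj b e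
    · exact ⟨a, c, b, e, ma, mc, mb, me, e2.1, e2.2, hab, hae, hbc.symm, hce,
        fun x hx => by rw [hNeq] at hx; simp at hx; rcases hx with h | h | h | h <;> simp [h]⟩
    by_cases e3 : G.Adj a e ∧ G.Adj b c
    · exact ⟨a, e, b, c, ma, me, mb, mc, e3.1, e3.2, hab, hac, hbe.symm, hce.symm,
        fun x hx => by rw [hNeq] at hx; simp at hx; rcases hx with h | h | h | h <;> simp [h]⟩
    exfalso
    exact match4 t1 t2 t3 t4
      (fun h h' => absurd h' (h3 a b ma mb h c mc hbc.symm))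
      (fun h h' => absurd h' (h3 a b ma mb h e me hbe.symm))
      (fun h h' => absurd h' (h3 a c ma mc h e me hce.symm))
      (fun h h' => absurd h' (h3 b c mb mc h e me hce.symm)) e1 e2 e3
  have hmemT : ∀ x y, x ∈ nb G v X → y ∈ nb G v X → G.Adj x y →
      ({v, x, y} : Finset V) ∈ T := by
    intro x y hx hy hxy
    simp only [hT, Finset.mem_filter, Finset.mem_powersetCard]
    exact ⟨⟨by simp [Finset.insert_subset_iff, hv, (hN x hx).1, (hN y hy).1],
      Finset.card_eq_three.2 ⟨v, x, y, (hN x hx).2.ne, (hN y hy).2.ne, hxy.ne, rfl⟩⟩,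
      (SimpleGraph.is3Clique_triple_iff.2 ⟨(hN x hx).2, (hN y hy).2, hxy⟩).isClique⟩
  have heq : T.filter (fun t => v ∈ t) = {{v, p, q}, {v, r, s}} := by
    ext t
    simp only [Finset.mem_filter, Finset.mem_insert, Finset.mem_singleton]
    constructor
    · rintro ⟨ht, hvt⟩
      simp only [hT, Finset.mem_filter, Finset.mem_powersetCard] at ht
      obtain ⟨x, y, hxy, hxyt⟩ := Finset.card_eq_two.1
        (by rw [Finset.card_erase_of_mem hvt, ht.1.2] : (t.erase v).card = 2)
      have htv : t = {v, x, y} := by rw [← hxyt, Finset.insert_erase hvt]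
      have hx : x ∈ t.erase v := by simp [hxyt]
      have hy : y ∈ t.erase v := by simp [hxyt]
      rw [Finset.mem_erase] at hx hy
      have hxN : x ∈ nb G v X := mem_nb.2 ⟨ht.1.1 hx.2, ht.2 hvt hx.2 hx.1.symm⟩
      have hyN : y ∈ nb G v X := mem_nb.2 ⟨ht.1.1 hy.2, ht.2 hvt hy.2 hy.1.symm⟩
      have hA : G.Adj x y := ht.2 hx.2 hy.2 hxy
      have mate : ∀ w w', w ∈ nb G v X → w' ∈ nb G v X → G.Adj w w' →
          ∀ z ∈ nb G v X, G.Adj w z → z = w' := fun w w' hw hw' hww z hz hwz => by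
        by_contra hne
        exact h3 w w' hw hw' hww z hz hne hwz
      rcases hall x hxN with rfl | rfl | rfl | rfl
      · left; rw [htv, mate _ q hp hq hpq y hyN hA]
      · left; rw [htv, mate _ p hq hp hpq.symm y hyN hA, Finset.pair_comm]
      · right; rw [htv, mate _ s hr hs hrs y hyN hA]
      · right; rw [htv, mate _ r hs hr hrs.symm y hyN hA, Finset.pair_comm]
    · rintro (rfl | rfl)
      · exact ⟨hmemT p q hp hq hpq, by simp⟩
      · exact ⟨hmemT r s hr hs hrs, by simp⟩
  rw [heq, Finset.card_pair]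
  intro he
  have : p ∈ ({v, r, s} : Finset V) := he ▸ by simp
  simp [(hN p hp).2.ne', hpr, hps] at this

/-- No minimal counterexample with `5 ≤ m ≤ 7` is free of cliques on four vertices. -/
theorem no_layers {m k : ℕ} {X : Finset V} (hm5 : 5 ≤ m) (hm7 : m ≤ 7) (hk3 : 3 ≤ k)
    (hk : k + 1 ≤ m) (hC : Cx G m k X) (hX : X.card = (m - 1) * k + 1) (h4 : CF G X 4) :
    False := by
  obtain ⟨v0, hv0⟩ := Finset.card_pos.1 (by omega : 0 < X.card)
  obtain ⟨rfl, rfl, -, -⟩ := layer_step hm5 hm7 hk3 hk hC hX h4 hv0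
  -- every vertex lies in exactly two triangles
  obtain ⟨T, hT⟩ : ∃ T, T = (X.powersetCard 3).filter (fun t : Finset V => G.IsClique (t : Set V)) :=
    ⟨_, rfl⟩
  have hTv : ∀ v ∈ X, (T.filter fun t => v ∈ t).card = 2 := by
    intro v hv
    obtain ⟨-, -, hd, ha⟩ := layer_step hm5 hm7 hk3 hk hC hX h4 hv
    exact two_tri hC h4 hv hd ha T hT
  have h1 : ∑ v ∈ X, (T.filter fun t => v ∈ t).card = ∑ t ∈ T, t.card := by
    simp only [Finset.card_filter]
    rw [Finset.sum_comm]
    refine Finset.sum_congr rfl fun t ht => ?_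
    rw [← Finset.card_filter]
    congr 1
    ext x
    simp only [hT, Finset.mem_filter, Finset.mem_powersetCard] at ht
    simp only [Finset.mem_filter]
    exact ⟨fun h => h.2, fun h => ⟨ht.1.1 h, h⟩⟩
  have h2 : ∀ t ∈ T, t.card = 3 := fun t ht => by
    rw [hT, Finset.mem_filter, Finset.mem_powersetCard] at ht
    exact ht.1.2
  rw [Finset.sum_congr rfl hTv, Finset.sum_congr rfl h2] at h1
  simp only [Finset.sum_const, smul_eq_mul] at h1
  omega

end Vale.Agent.P048.Full.Small
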