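import Vale.Agent.P048.Full.Small.Seven

/-!
P048: for cycles on seven vertices there is no clique on four vertices, the case of several
doubly attached vertices.
-/

open scoped Classical

namespace Vale.Agent.P048.Full.Small

variable {V : Type*} {G : SimpleGraph V} {k : ℕ} {X K : Finset V}

variable (h : Setup G 7 k 4 X K) (hk : k ≤ 6)
include h hk

/-- All doubly attached vertices share their two attachments. -/
lemma Setup.multi_same {a b : V} (hab : a ≠ b) (hM : 2 ≤ (multi G X K).card)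
    (hall : ∀ x ∈ multi G X K, att G K x = {a, b}) : False := by
  have hMW : ∀ x ∈ multi G X K, x ∈ X \ K := fun x hx => (Finset.mem_filter.1 hx).1
  obtain ⟨x0, hx0, y0, hy0, hxy0⟩ := Finset.one_lt_card.1 hM
  have ha : a ∈ K := (mem_att.1 (show a ∈ att G K x0 by simp [hall x0 hx0])).1
  have hb : b ∈ K := (mem_att.1 (show b ∈ att G K x0 by simp [hall x0 hx0])).1
  have hAt : ∀ x ∈ multi G X K, a ∈ att G K x ∧ b ∈ att G K x := fun x hx => by simp [hall x hx]
  have hpriv : ∀ e, ∀ u ∈ priv G X K e, u ∈ X \ K ∧ att G K u = {e} ∧ u ∉ multi G X K := by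
    intro e u hu
    obtain ⟨h1, h2⟩ := Finset.mem_filter.1 hu
    exact ⟨h1, h2, fun r => by have := (Finset.mem_filter.1 r).2; simp [h2] at this⟩
  have other : ∀ x, ∃ z ∈ multi G X K, z ≠ x := fun x => Finset.exists_mem_ne (by omega) x
  have nopriv : ∀ e f, e ≠ f → e ≠ a → e ≠ b → ∀ u ∈ priv G X K e, ∀ w ∈ X \ K,
      f ∈ att G K w → ¬ G.Adj u w := by
    intro e f hne hea heb u hu w hw hf hA
    obtain ⟨z, hz, hzw⟩ := other w
    have := h.ear21 (hpriv e u hu).1 hw hA (by simp [(hpriv e u hu).2.1]) hf hne hz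
      (fun r => (hpriv e u hu).2.2 (r ▸ hz)) hzw
    rw [hall z hz] at this
    have he : e ∈ ({a, b} : Finset V) := by rw [this]; simp
    simp [hea, heb] at he
  obtain ⟨c, d, hcd, hKeq⟩ := Finset.card_eq_two.1
    (show (K \ {a, b}).card = 2 by
      rw [Finset.card_sdiff_of_subset (by simp [Finset.insert_subset_iff, ha, hb]), h.card,
        Finset.card_pair hab])
  have hc : c ∈ K ∧ c ≠ a ∧ c ≠ b := by
    have : c ∈ K \ {a, b} := by simp [hKeq]
    simpa using this
  have hd : d ∈ K ∧ d ≠ a ∧ d ≠ b := by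
    have : d ∈ K \ {a, b} := by simp [hKeq]
    simpa using this
  have hex : ∀ e ∈ K, e ≠ a → e ≠ b → ∃ u, u ∈ priv G X K e := by
    intro e he hea heb
    obtain ⟨u, hu⟩ := Finset.card_pos.1 (by have := h.nb_card he; omega :
      0 < (nb G e (X \ K)).card)
    rcases h.cover hu he with r | r
    · exact ⟨u, r⟩
    · have := r.2
      simp [hall u r.1, hea, heb] at this
  obtain ⟨c1, hc1⟩ := hex c hc.1 hc.2.1 hc.2.2
  obtain ⟨d1, hd1⟩ := hex d hd.1 hd.2.1 hd.2.2
  -- two further vertices on `a` and `b`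
  obtain ⟨p, q, hpW, hqW, hap, hbq, hpA, hqA, hpq, hnA⟩ : ∃ p q, p ∈ X \ K ∧ q ∈ X \ K ∧
      a ∈ att G K p ∧ b ∈ att G K q ∧ att G K p ⊆ {a, b} ∧ att G K q ⊆ {a, b} ∧ p ≠ q ∧
      ¬ G.Adj p q := by
    by_cases hn : ∃ x ∈ multi G X K, ∃ y ∈ multi G X K, x ≠ y ∧ ¬ G.Adj x y
    · obtain ⟨x, hx, y, hy, hne, hA⟩ := hn
      exact ⟨x, y, hMW x hx, hMW y hy, (hAt x hx).1, (hAt y hy).2, (hall x hx).le, (hall y hy).le,
        hne, hA⟩
    push Not at hn
    have hM2 : (multi G X K).card ≤ 2 := by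
      have hcl : G.IsClique ((insert a (insert b (multi G X K)) : Finset V) : Set V) := by
        rw [Finset.coe_insert, Finset.coe_insert]
        refine (SimpleGraph.IsClique.insert (fun x hx y hy hne => hn x hx y hy hne)
          fun x hx _ => ((mem_att.1 (hAt x hx).2).2).symm).insert ?_
        rintro x (rfl | hx) hne
        · exact h.cl ha hb hne
        · exact ((mem_att.1 (hAt x hx).1).2).symm
      have hb' : b ∉ multi G X K := fun r => (Finset.mem_sdiff.1 (hMW b r)).2 hb
      have ha' : a ∉ insert b (multi G X K) := by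
        simp only [Finset.mem_insert, not_or]
        exact ⟨hab, fun r => (Finset.mem_sdiff.1 (hMW a r)).2 ha⟩
      have := h.cf _ (Finset.insert_subset (h.sub ha) (Finset.insert_subset (h.sub hb)
        (fun x hx => (Finset.mem_sdiff.1 (hMW x hx)).1) : insert b (multi G X K) ⊆ X)) hcl
      rw [Finset.card_insert_of_notMem ha', Finset.card_insert_of_notMem hb'] at this
      omega
    obtain ⟨a1, ha1⟩ : ∃ a1, a1 ∈ priv G X K a := by
      by_contra hno
      push Not at hno
      have h1 : nb G a (X \ K) ⊆ multi G X K := fun u hu => by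
        rcases h.cover hu ha with r | r
        · exact absurd r (hno u)
        · exact r.1
      have := Finset.card_le_card h1
      have := h.nb_card ha
      omega
    refine ⟨a1, x0, (hpriv a a1 ha1).1, hMW x0 hx0, by simp [(hpriv a a1 ha1).2.1], (hAt x0 hx0).2,
      by simp [(hpriv a a1 ha1).2.1], (hall x0 hx0).le, fun r => (hpriv a a1 ha1).2.2 (r ▸ hx0),
      fun hA => ?_⟩
    obtain ⟨y, hy, hyx⟩ := other x0
    have w1 := (hpriv a a1 ha1).1
    have w2 := hMW x0 hx0
    have w3 := hMW y hy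
    have e1 := (mem_att.1 (show a ∈ att G K a1 by simp [(hpriv a a1 ha1).2.1])).2
    have e2 := (mem_att.1 (hAt y hy).2).2
    refine h.cx.noc (fill h.cl a b [a1, x0, y] [] ?_ ?_ ⟨ha, hb⟩ ?_ (by simp) ?_)
    · simp [kw ha w1, kw ha w2, kw ha w3, hab, hA.ne, (kw hb w1).symm, hyx.symm,
        show a1 ≠ y from fun r => (hpriv a a1 ha1).2.2 (r ▸ hy), (kw hb w2).symm, (kw hb w3).symm]
    · simp [e1.symm, hA, hn x0 hx0 y hy hyx.symm, e2]
    · simp [(Finset.mem_sdiff.1 w1).2, (Finset.mem_sdiff.1 w2).2, (Finset.mem_sdiff.1 w3).2]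
    · simp [h.card]
  obtain ⟨c1W, c1A, -⟩ := hpriv c c1 hc1
  obtain ⟨d1W, d1A, -⟩ := hpriv d d1 hd1
  have hcn : ∀ w ∈ X \ K, ∀ f ∈ att G K w, f ≠ c → c1 ≠ w ∧ ¬ G.Adj c1 w := fun w hw f hf hne =>
    ⟨fun r => hne (by simpa [← r, c1A] using hf),
      nopriv c f hne.symm hc.2.1 hc.2.2 c1 hc1 w hw hf⟩
  have hdn : ∀ w ∈ X \ K, ∀ f ∈ att G K w, f ≠ d → d1 ≠ w ∧ ¬ G.Adj d1 w := fun w hw f hf hne =>
    ⟨fun r => hne (by simpa [← r, d1A] using hf),
      nopriv d f hne.symm hd.2.1 hd.2.2 d1 hd1 w hw hf⟩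
  have f1 := hcn d1 d1W d (by simp [d1A]) hcd.symm
  have f2 := hcn p hpW a hap hc.2.1.symm
  have f3 := hcn q hqW b hbq hc.2.2.symm
  have f4 := hdn p hpW a hap hd.2.1.symm
  have f5 := hdn q hqW b hbq hd.2.2.symm
  refine h.four_reps hk {c1, d1, p, q} (by simp [Finset.insert_subset_iff, c1W, d1W, hpW, hqW])
    (by rw [Finset.card_eq_four.2 ⟨c1, d1, p, q, f1.1, f2.1, f3.1, f4.1, f5.1, hpq, rfl⟩]) ?_ ?_
  · intro y hy
    simp only [Finset.mem_insert, Finset.mem_singleton] at hy
    rcases hy with rfl | rfl | rfl | rfl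
    · simp [c1A]
    · simp [d1A]
    · exact (Finset.card_le_card hpA).trans Finset.card_le_two
    · exact (Finset.card_le_card hqA).trans Finset.card_le_two
  · have sy : ∀ {y y' : V}, (¬ G.Adj y y' ∧ ∃ e ∈ att G K y, ∃ f ∈ att G K y', e ≠ f) →
        ¬ G.Adj y' y ∧ ∃ e ∈ att G K y', ∃ f ∈ att G K y, e ≠ f := fun ⟨h1, e, he, f, hf, hne⟩ =>
      ⟨fun r => h1 r.symm, f, hf, e, he, hne.symm⟩
    have g1 : ¬ G.Adj c1 d1 ∧ ∃ e ∈ att G K c1, ∃ f ∈ att G K d1, e ≠ f :=
      ⟨f1.2, c, by simp [c1A], d, by simp [d1A], hcd⟩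
    have g2 : ¬ G.Adj c1 p ∧ ∃ e ∈ att G K c1, ∃ f ∈ att G K p, e ≠ f :=
      ⟨f2.2, c, by simp [c1A], a, hap, hc.2.1⟩
    have g3 : ¬ G.Adj c1 q ∧ ∃ e ∈ att G K c1, ∃ f ∈ att G K q, e ≠ f :=
      ⟨f3.2, c, by simp [c1A], b, hbq, hc.2.2⟩
    have g4 : ¬ G.Adj d1 p ∧ ∃ e ∈ att G K d1, ∃ f ∈ att G K p, e ≠ f :=
      ⟨f4.2, d, by simp [d1A], a, hap, hd.2.1⟩
    have g5 : ¬ G.Adj d1 q ∧ ∃ e ∈ att G K d1, ∃ f ∈ att G K q, e ≠ f :=
      ⟨f5.2, d, by simp [d1A], b, hbq, hd.2.2⟩
    have g6 : ¬ G.Adj p q ∧ ∃ e ∈ att G K p, ∃ f ∈ att G K q, e ≠ f :=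
      ⟨hnA, a, hap, b, hbq, hab⟩
    intro y hy y' hy' hne
    simp only [Finset.mem_insert, Finset.mem_singleton] at hy hy'
    rcases hy with rfl | rfl | rfl | rfl <;> rcases hy' with rfl | rfl | rfl | rfl <;>
      first
        | exact absurd rfl hne
        | assumption
        | exact sy g1
        | exact sy g2
        | exact sy g3
        | exact sy g4
        | exact sy g5
        | exact sy g6

/-- Two doubly attached vertices with different attachments. -/
lemma Setup.multi_mixed (hM : 2 ≤ (multi G X K).card)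
    (hdiff : ∀ A : Finset V, ∃ x ∈ multi G X K, A.card = 2 → att G K x ≠ A) : False := by
  set M := multi G X K with hMdef
  have hMW : ∀ x ∈ M, x ∈ X \ K ∧ 2 ≤ (att G K x).card := fun x hx => Finset.mem_filter.1 hx
  have hp : ∀ e, ∀ u ∈ priv G X K e, u ∈ X \ K ∧ att G K u = {e} ∧ u ∉ M := by
    intro e u hu
    obtain ⟨h1, h2⟩ := Finset.mem_filter.1 hu
    exact ⟨h1, h2, fun r => by have := (hMW u r).2; simp [h2] at this⟩
  have pp : ∀ e f, e ≠ f → ∀ u ∈ priv G X K e, ∀ w ∈ priv G X K f, ¬ G.Adj u w := by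
    intro e f hne u hu w hw hA
    obtain ⟨x, hx, hxA⟩ := hdiff {e, f}
    exact hxA (Finset.card_pair hne) (h.ear21 (hp e u hu).1 (hp f w hw).1 hA
      (by simp [(hp e u hu).2.1]) (by simp [(hp f w hw).2.1]) hne hx
      (fun r => (hp e u hu).2.2 (r ▸ hx)) (fun r => (hp f w hw).2.2 (r ▸ hx)))
  have pm : ∀ c, ∀ u ∈ priv G X K c, ∀ x ∈ M, ¬ G.Adj u x := by
    intro c u hu x hx hA
    obtain ⟨z, hz, hzx⟩ := Finset.exists_mem_ne (by omega : 1 < M.card) x
    have key : ∀ e ∈ att G K x, e ≠ c → ∀ z ∈ M, z ≠ x → att G K z = {c, e} :=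
      fun e he hec z hz hzx => h.ear21 (hp c u hu).1 (hMW x hx).1 hA (by simp [(hp c u hu).2.1]) he
        hec.symm hz (fun r => (hp c u hu).2.2 (r ▸ hz)) hzx
    obtain ⟨e, he, hec⟩ := Finset.exists_mem_ne
      (show 1 < (att G K x).card from (hMW x hx).2) c
    have hxA : att G K x = {c, e} := by
      refine Finset.eq_of_subset_of_card_le (fun g hg => ?_)
        (Finset.card_le_two.trans (hMW x hx).2)
      by_cases hgc : g = c
      · simp [hgc]
      · have : g ∈ ({c, e} : Finset V) := by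
          rw [← key e he hec z hz hzx, key g hg hgc z hz hzx]
          simp
        exact this
    obtain ⟨w, hw, hwA⟩ := hdiff {c, e}
    refine hwA (Finset.card_pair hec.symm) ?_
    rcases eq_or_ne w x with rfl | hne
    · exact hxA
    · exact key e he hec w hw hne
  have mm : 3 ≤ M.card → ∀ x ∈ M, ∀ y ∈ M, ¬ G.Adj x y := by
    intro h3 x hx y hy hA
    have key : ∀ e ∈ att G K x, ∀ f ∈ att G K y, e ≠ f → ∀ z ∈ M, z ≠ x → z ≠ y →
        att G K z = {e, f} := fun e he f hf hne z hz h1 h2 =>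
      h.ear21 (hMW x hx).1 (hMW y hy).1 hA he hf hne hz h1 h2
    obtain ⟨e, he⟩ := Finset.card_pos.1 (by have := (hMW x hx).2; omega : 0 < (att G K x).card)
    obtain ⟨f, hf, hfe⟩ := Finset.exists_mem_ne (show 1 < (att G K y).card from (hMW y hy).2) e
    obtain ⟨z, hz, hzx, hzy⟩ : ∃ z ∈ M, z ≠ x ∧ z ≠ y := by
      obtain ⟨z, hz, hzy⟩ := Finset.exists_mem_ne
        (show 1 < (M.erase x).card by rw [Finset.card_erase_of_mem hx]; omega) y
      rw [Finset.mem_erase] at hz
      exact ⟨z, hz.2, hz.1, hzy⟩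
    have hzA := key e he f hf hfe.symm z hz hzx hzy
    have hxA : att G K x = {e, f} := by
      refine Finset.eq_of_subset_of_card_le (fun g hg => ?_)
        (Finset.card_le_two.trans (hMW x hx).2)
      obtain ⟨g', hg', hgg⟩ := Finset.exists_mem_ne (show 1 < (att G K y).card from (hMW y hy).2) g
      rw [← hzA, key g hg g' hg' hgg.symm z hz hzx hzy]
      simp
    have hyA : att G K y = {e, f} := by
      refine Finset.eq_of_subset_of_card_le (fun g hg => ?_)
        (Finset.card_le_two.trans (hMW y hy).2)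
      obtain ⟨g', hg', hgg⟩ := Finset.exists_mem_ne (show 1 < (att G K x).card from (hMW x hx).2) g
      rw [← hzA, key g' hg' g hg hgg z hz hzx hzy]
      simp
    obtain ⟨w, hw, hwA⟩ := hdiff {e, f}
    refine hwA (Finset.card_pair hfe.symm) ?_
    rcases eq_or_ne w x with rfl | h1
    · exact hxA
    rcases eq_or_ne w y with rfl | h2
    · exact hyA
    exact key e he f hf hfe.symm w hw h1 h2
  by_cases hallp : ∀ e ∈ K, (priv G X K e).Nonempty
  · let r : V → V := fun e => if he : e ∈ K then (hallp e he).choose else e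
    have hr : ∀ e ∈ K, r e ∈ priv G X K e := by
      intro e he
      simp only [r, dif_pos he]
      exact (hallp e he).choose_spec
    refine h.priv_reps hk (K.image r) (fun e he => ⟨r e, Finset.mem_image_of_mem _ he, hr e he⟩)
      ?_ ?_ ?_
    · intro y hy
      obtain ⟨e, he, rfl⟩ := Finset.mem_image.1 hy
      exact ⟨e, he, hr e he⟩
    · intro y hy y' hy'
      obtain ⟨e, he, rfl⟩ := Finset.mem_image.1 hy
      obtain ⟨f, hf, rfl⟩ := Finset.mem_image.1 hy'
      rcases eq_or_ne e f with rfl | hne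
      · exact G.irrefl
      · exact pp e f hne _ (hr e he) _ (hr f hf)
    · intro y hy y' hy' hr'
      obtain ⟨e, he, rfl⟩ := Finset.mem_image.1 hy
      obtain ⟨f, hf, rfl⟩ := Finset.mem_image.1 hy'
      rw [(hp e _ (hr e he)).2.1, (hp f _ (hr f hf)).2.1] at hr'
      rw [Finset.singleton_injective hr']
  push Not at hallp
  obtain ⟨c, hc, hc0⟩ := hallp
  have hNc : ∀ u ∈ nb G c (X \ K), u ∈ M ∧ c ∈ att G K u := fun u hu => by
    rcases h.cover hu hc with r | r
    · simp [hc0] at r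
    · exact r
  have hM3 : 3 ≤ M.card := by
    have := Finset.card_le_card (fun u hu => (hNc u hu).1 : nb G c (X \ K) ⊆ M)
    have := h.nb_card hc
    omega
  replace mm := mm hM3
  have attcases : ∀ u ∈ X \ K, ∀ f ∈ att G K u, u ∈ M ∨ u ∈ priv G X K f := by
    intro u hu f hf
    rcases h.cover (mem_nb.2 ⟨hu, (mem_att.1 hf).2.symm⟩) (mem_att.1 hf).1 with r | r
    · exact Or.inr r
    · exact Or.inl r.1
  -- outside neighbours of a doubly attached vertex see no clique vertex
  have hfree : ∀ z ∈ M, ∀ u ∈ nb G z (X \ K), att G K u = ∅ := by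
    intro z hz u hu
    rw [mem_nb] at hu
    refine Finset.eq_empty_of_forall_notMem fun f hf => ?_
    rcases attcases u hu.1 f hf with r | r
    · exact mm z hz u r hu.2
    · exact pm f u r z hz hu.2.symm
  obtain ⟨x, hx⟩ := Finset.card_pos.1 (by omega : 0 < M.card)
  obtain ⟨u, hu⟩ := Finset.card_pos.1 (by
    have := h.nb_out_card (hMW x hx).1
    have := h.att_lt (hMW x hx).1
    omega : 0 < (nb G x (X \ K)).card)
  have huA := hfree x hx u hu
  rw [mem_nb] at hu
  set B := insert u ((nb G u (X \ K)).erase x) with hB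
  have hBW : B ⊆ X \ K := Finset.insert_subset hu.1
    ((Finset.erase_subset _ _).trans (Finset.filter_subset _ _))
  have hxu : ∀ w ∈ B, w ≠ x ∧ att G K w = ∅ := by
    intro w hw
    rcases Finset.mem_insert.1 hw with rfl | hw
    · exact ⟨hu.2.ne', huA⟩
    rw [Finset.mem_erase, mem_nb] at hw
    refine ⟨hw.1, Finset.eq_empty_of_forall_notMem fun f hf => ?_⟩
    obtain ⟨e, he, hef⟩ := Finset.exists_mem_ne (show 1 < (att G K x).card from (hMW x hx).2) f
    exact h.no_common (by norm_num) (by norm_num) (hMW x hx).1 hw.2.1 hu.1 he hf hef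
      (Ne.symm hw.1) hu.2 hw.2.2
  have hB2 : 2 ≤ alpha G B := by
    refine two_le_alpha (h.cf.mono (hBW.trans Finset.sdiff_subset)) ?_
    have h1 := h.nb_out_card hu.1
    rw [huA, Finset.card_empty] at h1
    have h2 : (nb G u (X \ K)).card - 1 ≤ ((nb G u (X \ K)).erase x).card :=
      Finset.pred_card_le_card_erase
    rw [hB, Finset.card_insert_of_notMem (by simp [mem_nb])]
    omega
  -- the rest of the family: units off the neighbourhood of `c`
  let A : V → Finset V := fun z => (unit G X K z).filter fun w => ¬ G.Adj c w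
  have hfar : ∀ y ∈ X \ K, ∀ f ∈ att G K y, y ≠ x → ¬ G.Adj x y →
      Disjoint B (A y) ∧ ∀ w ∈ B, ∀ u' ∈ A y, ¬ G.Adj w u' := by
    intro y hy f hf hyx hA
    obtain ⟨e, he, hef⟩ := Finset.exists_mem_ne (show 1 < (att G K x).card from (hMW x hx).2) f
    obtain ⟨hdis, hanti⟩ := h.sep (by norm_num) (by norm_num) (hMW x hx).1 hy he hf hef
      hyx.symm hA
    have huU : u ∈ unit G X K x := Finset.mem_insert_of_mem (mem_nb.2 hu)
    rw [mem_att] at he
    have hfK := mem_att.1 hf
    have wy : ∀ w ∈ B, w ≠ y := fun w hw r => by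
      have := (hxu w hw).2
      rw [r] at this
      simp [this] at hf
    have hwy : ∀ w ∈ B, ¬ G.Adj w y := by
      intro w hw hwA
      rcases Finset.mem_insert.1 hw with rfl | hw'
      · exact hanti w huU y (Finset.mem_insert_self _ _) hwA
      rw [Finset.mem_erase, mem_nb] at hw'
      refine h.cx.noc (fill h.cl e f [x, u, w, y] [] ?_ ?_ ⟨he.1, hfK.1⟩ ?_ (by simp) ?_)
      · simp [kw he.1 (hMW x hx).1, kw he.1 hu.1, kw he.1 hw'.2.1, kw he.1 hy, hef, hu.2.ne,
          Ne.symm hw'.1, hyx.symm, (kw hfK.1 (hMW x hx).1).symm, hw'.2.2.ne,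
          wy u (Finset.mem_insert_self _ _), (kw hfK.1 hu.1).symm, wy w hw,
          (kw hfK.1 hw'.2.1).symm, (kw hfK.1 hy).symm]
      · simp [he.2.symm, hu.2, hw'.2.2, hwA, hfK.2]
      · simp [(Finset.mem_sdiff.1 (hMW x hx).1).2, (Finset.mem_sdiff.1 hu.1).2,
          (Finset.mem_sdiff.1 hw'.2.1).2, (Finset.mem_sdiff.1 hy).2]
      · simp [h.card]
    refine ⟨?_, ?_⟩
    · rw [Finset.disjoint_left]
      intro w hw hw'
      rcases Finset.mem_insert.1 (Finset.mem_filter.1 hw').1 with r | r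
      · exact wy w hw r
      · exact hwy w hw ((mem_nb.1 r).2.symm)
    · intro w hw u' hu' hwA
      rcases Finset.mem_insert.1 (Finset.mem_filter.1 hu').1 with r | r
      · exact hwy w hw (r ▸ hwA)
      rcases Finset.mem_insert.1 hw with e1 | hw'
      · exact hanti u huU u' (Finset.mem_insert_of_mem r) (e1 ▸ hwA)
      have e2 : u ≠ u' := fun e' =>
        Finset.disjoint_left.1 hdis huU (Finset.mem_insert_of_mem (e' ▸ r : u ∈ nb G y (X \ K)))
      rw [Finset.mem_erase, mem_nb] at hw'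
      rw [mem_nb] at r
      have e3 : x ≠ u' := fun e' => hA (e' ▸ r.2).symm
      refine h.cx.noc (fill h.cl e f [x, u, w, u', y] [] ?_ ?_ ⟨he.1, hfK.1⟩ ?_ (by simp) ?_)
      · simp [kw he.1 (hMW x hx).1, kw he.1 hu.1, kw he.1 hw'.2.1, kw he.1 r.1, kw he.1 hy, hef,
          hu.2.ne, Ne.symm hw'.1, e3, hyx.symm, (kw hfK.1 (hMW x hx).1).symm, hw'.2.2.ne, e2,
          wy u (Finset.mem_insert_self _ _), (kw hfK.1 hu.1).symm, hwA.ne, wy w hw,
          (kw hfK.1 hw'.2.1).symm, r.2.ne', (kw hfK.1 r.1).symm, (kw hfK.1 hy).symm]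
      · simp [he.2.symm, hu.2, hw'.2.2, hwA, r.2.symm, hfK.2]
      · simp [(Finset.mem_sdiff.1 (hMW x hx).1).2, (Finset.mem_sdiff.1 hu.1).2,
          (Finset.mem_sdiff.1 hw'.2.1).2, (Finset.mem_sdiff.1 hy).2, (Finset.mem_sdiff.1 r.1).2]
      · simp [h.card]
  -- `D` is empty or one private vertex
  have final : ∀ D : Finset V, D.card ≤ 1 → (∀ y ∈ D, ∃ d, y ∈ priv G X K d) →
      1 + (M.card - 1) + 2 * D.card + 2 ≤ k := by
    intro D hD1 hD
    have hR : ∀ y ∈ M.erase x ∪ D, y ∈ X \ K ∧ y ≠ x ∧ ¬ G.Adj x y ∧ (att G K y).Nonempty := by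
      intro y hy
      rcases Finset.mem_union.1 hy with r | r
      · rw [Finset.mem_erase] at r
        exact ⟨(hMW y r.2).1, r.1, mm x hx y r.2,
          Finset.card_pos.1 (by have := (hMW y r.2).2; omega)⟩
      · obtain ⟨d, hd⟩ := hD y r
        exact ⟨(hp d y hd).1, fun e => (hp d y hd).2.2 (e ▸ hx), fun e => pm d y hd x hx e.symm,
          d, by simp [(hp d y hd).2.1]⟩
    have hpair : ∀ y ∈ M.erase x ∪ D, ∀ y' ∈ M.erase x ∪ D, y ≠ y' →
        Disjoint (A y) (A y') ∧ ∀ a ∈ A y, ∀ b ∈ A y', ¬ G.Adj a b := by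
      intro y hy y' hy' hne
      have hnA : ¬ G.Adj y y' := by
        rcases Finset.mem_union.1 hy with r | r <;> rcases Finset.mem_union.1 hy' with r' | r'
        · exact mm y (Finset.mem_of_mem_erase r) y' (Finset.mem_of_mem_erase r')
        · obtain ⟨d, hd⟩ := hD y' r'
          exact fun e => pm d y' hd y (Finset.mem_of_mem_erase r) e.symm
        · obtain ⟨d, hd⟩ := hD y r
          exact pm d y hd y' (Finset.mem_of_mem_erase r')
        · exact absurd (Finset.card_le_one.1 hD1 y r y' r') hne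
      obtain ⟨e, he, f, hf, hef⟩ : ∃ e ∈ att G K y, ∃ f ∈ att G K y', e ≠ f := by
        rcases Finset.mem_union.1 hy with r | r
        · obtain ⟨f, hf⟩ := (hR y' hy').2.2.2
          obtain ⟨e, he, hef⟩ := Finset.exists_mem_ne
            (show 1 < (att G K y).card from (hMW y (Finset.mem_of_mem_erase r)).2) f
          exact ⟨e, he, f, hf, hef⟩
        · rcases Finset.mem_union.1 hy' with r' | r'
          · obtain ⟨e, he⟩ := (hR y hy).2.2.2
            obtain ⟨f, hf, hfe⟩ := Finset.exists_mem_ne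
              (show 1 < (att G K y').card from (hMW y' (Finset.mem_of_mem_erase r')).2) e
            exact ⟨e, he, f, hf, hfe.symm⟩
          · exact absurd (Finset.card_le_one.1 hD1 y r y' r') hne
      obtain ⟨h1, h2⟩ := h.sep (by norm_num) (by norm_num) (hR y hy).1 (hR y' hy').1 he hf hef
        hne hnA
      exact ⟨Finset.disjoint_of_subset_left (Finset.filter_subset _ _)
          (Finset.disjoint_of_subset_right (Finset.filter_subset _ _) h1),
        fun a ha b hb => h2 a (Finset.mem_filter.1 ha).1 b (Finset.mem_filter.1 hb).1⟩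
    have hAX : ∀ y ∈ M.erase x ∪ D, A y ⊆ X \ K := fun y hy =>
      (Finset.filter_subset _ _).trans (unit_subset (hR y hy).1)
    set U := (M.erase x ∪ D).biUnion A with hU
    have hUW : U ⊆ X \ K := Finset.biUnion_subset.2 hAX
    have s1 : ∑ y ∈ M.erase x ∪ D, alpha G (A y) ≤ alpha G U := alpha_biUnion A _ hAX hpair
    have s2 : alpha G B + alpha G U ≤ alpha G (B ∪ U) := by
      refine alpha_add Finset.subset_union_left Finset.subset_union_right ?_ ?_
      · rw [hU, Finset.disjoint_biUnion_right]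
        intro y hy
        obtain ⟨f, hf⟩ := (hR y hy).2.2.2
        exact (hfar y (hR y hy).1 f hf (hR y hy).2.1 (hR y hy).2.2.1).1
      · intro w hw b hb
        obtain ⟨y, hy, hby⟩ := Finset.mem_biUnion.1 hb
        obtain ⟨f, hf⟩ := (hR y hy).2.2.2
        exact (hfar y (hR y hy).1 f hf (hR y hy).2.1 (hR y hy).2.2.1).2 w hw b hby
    have s3 : alpha G {c} + alpha G (B ∪ U) ≤ alpha G X := by
      refine alpha_add (by simp [h.sub hc])
        ((Finset.union_subset hBW hUW).trans Finset.sdiff_subset) ?_ ?_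
      · rw [Finset.disjoint_singleton_left]
        exact fun r => (Finset.mem_sdiff.1 (Finset.union_subset hBW hUW r)).2 hc
      · intro a ha w hw hA
        rw [Finset.mem_singleton] at ha
        subst ha
        rcases Finset.mem_union.1 hw with r | r
        · have : a ∈ att G K w := mem_att.2 ⟨hc, hA.symm⟩
          simp [(hxu w r).2] at this
        · obtain ⟨y, -, hy⟩ := Finset.mem_biUnion.1 r
          exact (Finset.mem_filter.1 hy).2 hA
    have s4 : 1 ≤ alpha G ({c} : Finset V) := one_le_alpha (by simp)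
    have hdisj : Disjoint (M.erase x) D := Finset.disjoint_left.2 fun y hy hy' => by
      obtain ⟨d, hd⟩ := hD y hy'
      exact (hp d y hd).2.2 (Finset.mem_of_mem_erase hy)
    rw [Finset.sum_union hdisj] at s1
    have s5 : ∑ _y ∈ M.erase x, 1 ≤ ∑ y ∈ M.erase x, alpha G (A y) := Finset.sum_le_sum fun y hy =>
      one_le_alpha (by
        have h1 := h.nb_out_card (hMW y (Finset.mem_of_mem_erase hy)).1
        have h2 := h.att_lt (hMW y (Finset.mem_of_mem_erase hy)).1
        obtain ⟨w, hw⟩ := Finset.card_pos.1 (by omega : 0 < (nb G y (X \ K)).card)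
        refine ⟨w, Finset.mem_filter.2 ⟨Finset.mem_insert_of_mem hw, fun r => ?_⟩⟩
        have : c ∈ att G K w := mem_att.2 ⟨hc, r.symm⟩
        simp [hfree y (Finset.mem_of_mem_erase hy) w hw] at this)
    have s6 : ∑ _y ∈ D, 2 ≤ ∑ y ∈ D, alpha G (A y) := Finset.sum_le_sum fun y hy => by
      obtain ⟨d, hd⟩ := hD y hy
      have hAy : A y = unit G X K y := by
        refine Finset.filter_true_of_mem fun w hw r => ?_
        rcases attcases w (unit_subset (hp d y hd).1 hw) c
          (mem_att.2 ⟨hc, r.symm⟩) with e | e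
        · rcases Finset.mem_insert.1 hw with e' | e'
          · exact (hp d y hd).2.2 (e' ▸ e)
          · exact pm d y hd w e (mem_nb.1 e').2
        · simp [hc0] at e
      rw [hAy]
      exact h.two_le_unit (by rw [(hp d y hd).2.1]; simp) (hp d y hd).1
    simp only [Finset.sum_const, smul_eq_mul, mul_one] at s5 s6
    rw [Finset.card_erase_of_mem hx] at s5
    have := h.cx.alp
    omega
  by_cases hsome : ∃ d, (priv G X K d).Nonempty
  · obtain ⟨d, y, hy⟩ := hsome
    have := final {y} (by simp) (fun z hz => ⟨d, by rw [Finset.mem_singleton.1 hz]; exact hy⟩)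
    simp at this
    omega
  push Not at hsome
  have := final ∅ (by simp) (by simp)
  simp at this
  have hN : ∀ e ∈ K, 3 ≤ (M.filter fun z => e ∈ att G K z).card := fun e he => by
    have h1 := h.nb_card he
    have h2 : nb G e (X \ K) ⊆ M.filter fun z => e ∈ att G K z := fun z hz => by
      rcases h.cover hz he with r | r
      · simp [hsome e] at r
      · exact Finset.mem_filter.2 r
    have := Finset.card_le_card h2
    omega
  have hmiss : ∀ z ∈ M, ∃ e ∈ K, e ∉ att G K z := fun z hz => by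
    by_contra hn
    push Not at hn
    have := Finset.card_le_card (fun e he => hn e he : K ⊆ att G K z)
    have := h.att_lt (hMW z hz).1
    rw [h.card] at *
    omega
  have huniq : ∀ e ∈ K, ∀ z ∈ M, ∀ z' ∈ M, z ≠ z' → e ∉ att G K z → e ∈ att G K z' := by
    intro e he z hz z' hz' hne h1
    by_contra h2
    have h3 : (M.filter fun w => e ∈ att G K w) ⊆ (M.erase z).erase z' := fun w hw => by
      rw [Finset.mem_filter] at hw
      exact Finset.mem_erase.2 ⟨fun r => h2 (r ▸ hw.2),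
        Finset.mem_erase.2 ⟨fun r => h1 (r ▸ hw.2), hw.1⟩⟩
    have h4 := Finset.card_le_card h3
    rw [Finset.card_erase_of_mem (Finset.mem_erase.2 ⟨hne.symm, hz'⟩),
      Finset.card_erase_of_mem hz] at h4
    have := hN e he
    omega
  obtain hM4 | hM4 : M.card = 3 ∨ M.card = 4 := by omega
  · obtain ⟨z, hz⟩ := Finset.card_pos.1 (by omega : 0 < M.card)
    obtain ⟨e, he, hez⟩ := hmiss z hz
    have h3 : (M.filter fun w => e ∈ att G K w) ⊆ M.erase z := fun w hw => by
      rw [Finset.mem_filter] at hw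
      exact Finset.mem_erase.2 ⟨fun r => hez (r ▸ hw.2), hw.1⟩
    have h4 := Finset.card_le_card h3
    rw [Finset.card_erase_of_mem hz] at h4
    have := hN e he
    omega
  obtain ⟨x, y, z, w, hxy, hxz, hxw, hyz, hyw, hzw, hMeq⟩ := Finset.card_eq_four.1 hM4
  have mx : x ∈ M ∧ y ∈ M ∧ z ∈ M ∧ w ∈ M := by simp [hMeq]
  obtain ⟨mx, my, mz, mw⟩ := mx
  obtain ⟨d, hd, hdx⟩ := hmiss x mx
  obtain ⟨c', hc', hcy⟩ := hmiss y my
  obtain ⟨b, hb, hbz⟩ := hmiss z mz
  obtain ⟨a, ha, haw⟩ := hmiss w mw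
  have n1 : d ≠ c' := fun r => hcy (r ▸ huniq d hd x mx y my hxy hdx)
  have n2 : d ≠ b := fun r => hbz (r ▸ huniq d hd x mx z mz hxz hdx)
  have n3 : d ≠ a := fun r => haw (r ▸ huniq d hd x mx w mw hxw hdx)
  have n4 : c' ≠ b := fun r => hbz (r ▸ huniq c' hc' y my z mz hyz hcy)
  have n5 : c' ≠ a := fun r => haw (r ▸ huniq c' hc' y my w mw hyw hcy)
  have n6 : b ≠ a := fun r => haw (r ▸ huniq b hb z mz w mw hzw hbz)
  have p1 := mem_att.1 (huniq d hd x mx z mz hxz hdx)
  have p2 := mem_att.1 (huniq a ha w mw z mz hzw.symm haw)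
  have p3 := mem_att.1 (huniq a ha w mw y my hyw.symm haw)
  have p4 := mem_att.1 (huniq b hb z mz y my hyz.symm hbz)
  have p5 := mem_att.1 (huniq b hb z mz x mx hxz.symm hbz)
  have p6 := mem_att.1 (huniq c' hc' y my x mx hxy.symm hcy)
  refine h.cx.noc (fill h.cl d c' [z, a, y, b, x] [a, b] ?_ ?_ ⟨hd, hc'⟩ ?_ (by simp) ?_)
  · simp [kw hd (hMW z mz).1, kw hd (hMW y my).1, kw hd (hMW x mx).1, n1, n2, n3,
      (kw ha (hMW z mz).1).symm, hyz.symm, (kw hb (hMW z mz).1).symm, hxz.symm,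
      (kw hc' (hMW z mz).1).symm, kw ha (hMW y my).1, n6.symm, kw ha (hMW x mx).1, n5.symm,
      (kw hb (hMW y my).1).symm, hxy.symm, (kw hc' (hMW y my).1).symm, kw hb (hMW x mx).1,
      n4.symm, (kw hc' (hMW x mx).1).symm]
  · simp [p1.2.symm, p2.2, p3.2.symm, p4.2, p5.2.symm, p6.2]
  · simp [(Finset.mem_sdiff.1 (hMW z mz).1).2, (Finset.mem_sdiff.1 (hMW y my).1).2,
      (Finset.mem_sdiff.1 (hMW x mx).1).2]
  · simp [h.card]

/-- No clique on four vertices when the cycle has seven vertices. -/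
theorem Setup.seven : False := by
  by_cases h0 : multi G X K = ∅
  · exact h.no_multi_none hk h0
  by_cases h1 : (multi G X K).card = 1
  · obtain ⟨x, hx⟩ := Finset.card_eq_one.1 h1
    exact h.no_multi_one hk hx
  have hM : 2 ≤ (multi G X K).card := by
    have := Finset.card_pos.2 (Finset.nonempty_iff_ne_empty.2 h0)
    omega
  by_cases hs : ∃ A : Finset V, A.card = 2 ∧ ∀ x ∈ multi G X K, att G K x = A
  · obtain ⟨A, hA, hall⟩ := hs
    obtain ⟨a, b, hab, rfl⟩ := Finset.card_eq_two.1 hA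
    exact h.multi_same hk hab hM hall
  push Not at hs
  refine h.multi_mixed hk hM fun A => ?_
  by_cases hA : A.card = 2
  · obtain ⟨x, hx, hne⟩ := hs A hA
    exact ⟨x, hx, fun _ => hne⟩
  · obtain ⟨x, hx⟩ := Finset.card_pos.1 (by omega : 0 < (multi G X K).card)
    exact ⟨x, hx, fun r => absurd r hA⟩

end Vale.Agent.P048.Full.Small
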