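import Vale.Agent.P048.Full.Small.Four
import Vale.Agent.P048.Full.Small.Layers
import Vale.Agent.P048.Full.Small.High
import Vale.Agent.P048.Full.Small.SevenMulti

/-!
P048: no minimal counterexample when the cycle has at most seven vertices.
-/

open scoped Classical

namespace Vale.Agent.P048.Full.Small

universe u

variable {V : Type u} {G : SimpleGraph V}

/-- The small cases of the cycle-complete Ramsey identity. -/
theorem small {m k : ℕ} {X : Finset V} (hm : 4 ≤ m) (hm7 : m ≤ 7) (hk1 : 1 ≤ k) (hk : k + 1 ≤ m)
    (hC : Cx G m k X) : False := by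
  obtain ⟨Y, hYX, hYc⟩ := Finset.exists_subset_card_eq
    (s := X) (n := (m - 1) * k + 1) (by have := hC.big; omega)
  replace hC : Cx G m k Y := ⟨hC.noc, hC.ih, (alpha_mono hYX).trans hC.alp, by omega⟩
  -- no clique with more than `k` vertices
  have hup : CF G Y (max (k + 1) 3) := by
    intro K hK hcl
    by_contra hge
    obtain ⟨T, hT, hTc⟩ := Finset.exists_subset_card_eq (not_lt.1 hge)
    exact hC.no_clique_up hk1 (hT.trans hK) (hcl.subset (Finset.coe_subset.2 hT)) (by omega)
      (by omega) (by omega)
  rcases (show k = 1 ∨ k = 2 ∨ 3 ≤ k by omega) with rfl | rfl | hk3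
  · have := card_le_of_clique hup hC.alp
    omega
  · have := r33 (by simpa using hup) hC.alp
    omega
  replace hup : CF G Y (k + 1) := fun K hK hc => (hup K hK hc).trans_le (by omega)
  by_cases h4 : CF G Y 4
  · rcases eq_or_lt_of_le hm with rfl | hm5
    · obtain rfl : k = 3 := by omega
      exact no_four hC (by omega) h4
    · exact no_layers hm5 hm7 hk3 hk hC hYc h4
  -- a largest clique
  obtain ⟨K, hKm, hmax⟩ := Finset.exists_max_image
    (Y.powerset.filter fun K : Finset V => G.IsClique (K : Set V)) Finset.card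
    ⟨∅, by simp [SimpleGraph.isClique_empty]⟩
  simp only [Finset.mem_filter, Finset.mem_powerset] at hKm hmax
  have hs4 : 4 ≤ K.card := by
    by_contra hlt
    refine h4 fun T hT hc => ?_
    have := hmax T ⟨hT, hc⟩
    omega
  have hsk := hup K hKm.1 hKm.2
  have h : Setup G m k K.card Y K :=
    ⟨hC, hKm.1, hKm.2, rfl, fun T hT hc => by have := hmax T ⟨hT, hc⟩; omega⟩
  rcases (show K.card + 1 = m ∨ K.card + 2 = m ∨ (K.card = 4 ∧ m = 7) by omega) with e | e | ⟨e, rfl⟩
  · exact no_clique_top h e (by omega) (by omega) hYc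
  · exact no_clique_sub h e (by omega) hk
  · exact (e ▸ h : Setup G 7 k 4 Y K).seven (by omega)

end Vale.Agent.P048.Full.Small
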