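import Vale.Agent.P048.Full.Small.Tools

/-!
P048, small cycle lengths: neighbourhoods outside a clique are far apart.
-/

open scoped Classical

namespace Vale.Agent.P048.Full.Small

variable {V : Type*} {G : SimpleGraph V} {m k s : ℕ} {X K : Finset V}

/-- The clique vertices adjacent to `y`. -/
noncomputable def att (G : SimpleGraph V) (K : Finset V) (y : V) : Finset V :=
  K.filter fun e => G.Adj y e

/-- `y` with its neighbours outside the clique. -/
noncomputable def unit (G : SimpleGraph V) (X K : Finset V) (y : V) : Finset V :=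
  insert y (nb G y (X \ K))

/-- A clique of the order `s` in a minimal counterexample without larger cliques. -/
structure Setup (G : SimpleGraph V) (m k s : ℕ) (X K : Finset V) : Prop where
  cx : Cx G m k X
  sub : K ⊆ X
  cl : G.IsClique (K : Set V)
  card : K.card = s
  cf : CF G X (s + 1)

lemma mem_att {y e : V} : e ∈ att G K y ↔ e ∈ K ∧ G.Adj y e := by simp [att]

lemma kw {e y : V} (he : e ∈ K) (hy : y ∈ X \ K) : e ≠ y :=
  fun h => (Finset.mem_sdiff.1 hy).2 (h ▸ he)

variable (h : Setup G m k s X K)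
include h

lemma Setup.att_lt {y : V} (hy : y ∈ X \ K) : (att G K y).card < s := by
  by_contra hge
  have heq : att G K y = K := Finset.eq_of_subset_of_card_le (Finset.filter_subset _ _)
    (by rw [h.card]; omega)
  rw [Finset.mem_sdiff] at hy
  have := h.cf (insert y K) (Finset.insert_subset hy.1 h.sub) (by
    rw [Finset.coe_insert]
    exact h.cl.insert fun e he _ => (mem_att.1 (heq.symm ▸ Finset.mem_coe.1 he : e ∈ att G K y)).2)
  rw [Finset.card_insert_of_notMem hy.2, h.card] at this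
  omega

lemma Setup.nb_card {e : V} (he : e ∈ K) : m ≤ (nb G e (X \ K)).card + s := by
  have h1 := h.cx.deg (h.sub he)
  have h2 : nb G e X ⊆ nb G e (X \ K) ∪ K.erase e := by
    intro x hx
    rw [mem_nb] at hx
    by_cases hxK : x ∈ K
    · exact Finset.mem_union_right _ (Finset.mem_erase.2 ⟨hx.2.ne', hxK⟩)
    · exact Finset.mem_union_left _ (mem_nb.2 ⟨Finset.mem_sdiff.2 ⟨hx.1, hxK⟩, hx.2⟩)
  have h3 := (Finset.card_le_card h2).trans (Finset.card_union_le _ _)
  rw [Finset.card_erase_of_mem he, h.card] at h3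
  have h4 : 0 < s := h.card ▸ Finset.card_pos.2 ⟨e, he⟩
  omega

lemma Setup.nb_out_card {y : V} (hy : y ∈ X \ K) :
    m ≤ (nb G y (X \ K)).card + (att G K y).card + 1 := by
  have h1 := h.cx.deg (Finset.mem_sdiff.1 hy).1
  have h2 : nb G y X ⊆ nb G y (X \ K) ∪ att G K y := by
    intro x hx
    rw [mem_nb] at hx
    by_cases hxK : x ∈ K
    · exact Finset.mem_union_right _ (mem_att.2 ⟨hxK, hx.2⟩)
    · exact Finset.mem_union_left _ (mem_nb.2 ⟨Finset.mem_sdiff.2 ⟨hx.1, hxK⟩, hx.2⟩)
  have h3 := (Finset.card_le_card h2).trans (Finset.card_union_le _ _)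
  omega

lemma Setup.unit_card {y : V} (hy : y ∈ X \ K) :
    m ≤ (unit G X K y).card + (att G K y).card := by
  have h1 := h.nb_out_card hy
  rw [unit, Finset.card_insert_of_notMem (by simp [mem_nb])]
  omega

omit h in
lemma unit_subset {y : V} (hy : y ∈ X \ K) : unit G X K y ⊆ X \ K :=
  Finset.insert_subset hy (Finset.filter_subset _ _)

/-- An outside vertex attached twice gives a cycle one longer than the clique. -/
lemma Setup.no_double (hs : m ≤ s + 1) (hm : 3 ≤ m) {y e f : V} (hy : y ∈ X \ K)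
    (he : e ∈ att G K y) (hf : f ∈ att G K y) : e = f := by
  by_contra hne
  rw [mem_att] at he hf
  refine h.cx.noc (fill h.cl e f [y] [] ?_ ?_ ⟨he.1, hf.1⟩ ?_ (by simpa using hm) ?_)
  · simp [kw he.1 hy, (kw hf.1 hy).symm, hne]
  · simp [he.2.symm, hf.2]
  · simp [(Finset.mem_sdiff.1 hy).2]
  · simp [h.card]
    omega

/-- Adjacent outside vertices with different attachments give a cycle two longer. -/
lemma Setup.no_edge (hs : m ≤ s + 2) (hm : 4 ≤ m) {y y' e f : V} (hy : y ∈ X \ K)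
    (hy' : y' ∈ X \ K) (he : e ∈ att G K y) (hf : f ∈ att G K y') (hne : e ≠ f) :
    ¬ G.Adj y y' := by
  intro hA
  rw [mem_att] at he hf
  refine h.cx.noc (fill h.cl e f [y, y'] [] ?_ ?_ ⟨he.1, hf.1⟩ ?_ (by simpa using hm) ?_)
  · simp [kw he.1 hy, kw he.1 hy', hne, hA.ne, (kw hf.1 hy).symm, (kw hf.1 hy').symm]
  · simp [he.2.symm, hA, hf.2]
  · simp [(Finset.mem_sdiff.1 hy).2, (Finset.mem_sdiff.1 hy').2]
  · simp [h.card]
    omega

/-- No common outside neighbour of two non-adjacent vertices with different attachments. -/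
lemma Setup.no_common (hs : m ≤ s + 3) (hm : 5 ≤ m) {y y' u e f : V} (hy : y ∈ X \ K)
    (hy' : y' ∈ X \ K) (hu : u ∈ X \ K) (he : e ∈ att G K y) (hf : f ∈ att G K y')
    (hne : e ≠ f) (hyy : y ≠ y') (h1 : G.Adj y u) : ¬ G.Adj u y' := by
  intro h2
  rw [mem_att] at he hf
  refine h.cx.noc (fill h.cl e f [y, u, y'] [] ?_ ?_ ⟨he.1, hf.1⟩ ?_ (by simpa using hm) ?_)
  · simp [kw he.1 hy, kw he.1 hu, kw he.1 hy', hne, h1.ne, h2.ne, hyy, (kw hf.1 hy).symm,
      (kw hf.1 hu).symm, (kw hf.1 hy').symm]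
  · simp [he.2.symm, h1, h2, hf.2]
  · simp [(Finset.mem_sdiff.1 hy).2, (Finset.mem_sdiff.1 hy').2, (Finset.mem_sdiff.1 hu).2]
  · simp [h.card]
    omega

/-- The units of two non-adjacent vertices with different attachments are anticomplete. -/
lemma Setup.sep (hs : m ≤ s + 3) (hm : 6 ≤ m) {y y' e f : V} (hy : y ∈ X \ K) (hy' : y' ∈ X \ K)
    (he : e ∈ att G K y) (hf : f ∈ att G K y') (hne : e ≠ f) (hyy : y ≠ y')
    (hA : ¬ G.Adj y y') :
    Disjoint (unit G X K y) (unit G X K y') ∧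
      ∀ u ∈ unit G X K y, ∀ u' ∈ unit G X K y', ¬ G.Adj u u' := by
  have c1 := fun u hu h1 => h.no_common hs (by omega) hy hy' (u := u) hu he hf hne hyy h1
  refine ⟨?_, ?_⟩
  · rw [Finset.disjoint_left]
    intro u hu hu'
    simp only [unit, Finset.mem_insert, mem_nb] at hu hu'
    rcases hu with rfl | ⟨huW, hu⟩ <;> rcases hu' with rfl | ⟨huW', hu'⟩
    · exact hyy rfl
    · exact hA hu'.symm
    · exact hA hu
    · exact c1 u huW hu hu'.symm
  · intro u hu u' hu' hA'
    simp only [unit, Finset.mem_insert, mem_nb] at hu hu'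
    rcases hu with rfl | ⟨huW, hu⟩ <;> rcases hu' with rfl | ⟨huW', hu'⟩
    · exact hA hA'
    · exact c1 u' huW' hA' hu'.symm
    · exact c1 u huW hu hA'
    · have e1 : u ≠ y' := fun e => hA (e ▸ hu)
      have e2 : y ≠ u' := fun e => hA (e ▸ hu').symm
      rw [mem_att] at he hf
      refine h.cx.noc (fill h.cl e f [y, u, u', y'] [] ?_ ?_ ⟨he.1, hf.1⟩ ?_ (by simpa using hm) ?_)
      · simp [kw he.1 hy, kw he.1 huW, kw he.1 huW', kw he.1 hy', hne, hu.ne, hA'.ne, hu'.ne', e1,
          e2, hyy, (kw hf.1 hy).symm, (kw hf.1 huW).symm, (kw hf.1 huW').symm, (kw hf.1 hy').symm]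
      · simp [he.2.symm, hu, hA', hu'.symm, hf.2]
      · simp [(Finset.mem_sdiff.1 hy).2, (Finset.mem_sdiff.1 hy').2, (Finset.mem_sdiff.1 huW).2,
          (Finset.mem_sdiff.1 huW').2]
      · simp [h.card]
        omega

/-- Vertices with pairwise different attachments and no edges among them give separate units. -/
lemma Setup.units_le (hs : m ≤ s + 3) (hm : 6 ≤ m) (R : Finset V) (hR : R ⊆ X \ K)
    (hd : ∀ y ∈ R, ∀ y' ∈ R, y ≠ y' →
      ¬ G.Adj y y' ∧ ∃ e ∈ att G K y, ∃ f ∈ att G K y', e ≠ f) :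
    ∑ y ∈ R, alpha G (unit G X K y) ≤ k := by
  refine (alpha_biUnion _ R (X := X) (fun y hy => (unit_subset (hR hy)).trans Finset.sdiff_subset)
    fun y hy y' hy' hne => ?_).trans ((alpha_mono (Finset.biUnion_subset.2 fun y hy =>
      (unit_subset (hR hy)).trans Finset.sdiff_subset)).trans h.cx.alp)
  obtain ⟨hA, e, he, f, hf, hef⟩ := hd y hy y' hy' hne
  exact h.sep hs hm (hR hy) (hR hy') he hf hef hne hA

/-- A unit with many vertices is no clique. -/
lemma Setup.two_le_unit {y : V} (hs : s + 1 + (att G K y).card ≤ m) (hy : y ∈ X \ K) :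
    2 ≤ alpha G (unit G X K y) :=
  two_le_alpha (h.cf.mono ((unit_subset hy).trans Finset.sdiff_subset))
    (by have := h.unit_card hy; omega)

end Vale.Agent.P048.Full.Small
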