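import Vale.Agent.P048.Full.Small.Ears

/-!
P048: the pair `(C₄, K₄)`.
-/

open scoped Classical

namespace Vale.Agent.P048.Full.Small

variable {V : Type*} {G : SimpleGraph V} {X : Finset V}

/-- No minimal counterexample for cycles on four vertices and three independent vertices. -/
theorem no_four (hC : Cx G 4 3 X) (hX : X.card = 10) (h4 : CF G X 4) : False := by
  by_cases h3 : CF G X 3
  · obtain ⟨v, hv⟩ := Finset.card_pos.1 (by omega : 0 < X.card)
    have h1 := card_le_nb_add (G := G) (X := X) (v := v)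
    have h2 := (nb_le_alpha h3 hv).trans hC.alp
    have h5 := alpha_nonnb hC.alp hv
    have h6 := r33 (h3.mono (Finset.filter_subset (fun y => y ≠ v ∧ ¬ G.Adj v y) X)) (by omega)
    omega
  simp only [CF, not_forall, not_lt] at h3
  obtain ⟨K, hK, hcl, hKc⟩ := h3
  obtain ⟨T, hT, hTc⟩ := Finset.exists_subset_card_eq hKc
  have h : Setup G 4 3 3 X T :=
    ⟨hC, hT.trans hK, hcl.subset (Finset.coe_subset.2 hT), hTc, h4⟩
  let N : V → Finset V := fun e => nb G e (X \ T)
  have hN : ∀ e ∈ T, ∀ y ∈ N e, y ∈ X \ T ∧ G.Adj e y ∧ e ∈ att G T y := by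
    intro e he y hy
    simp only [N, mem_nb] at hy
    exact ⟨hy.1, hy.2, mem_att.2 ⟨he, hy.2.symm⟩⟩
  have hne : ∀ e ∈ T, ∀ f ∈ T, e ≠ f → ∀ y ∈ N e, ∀ y' ∈ N f,
      y ≠ y' ∧ ¬ G.Adj y y' ∧ ¬ G.Adj e y' := by
    intro e he f hf hef y hy y' hy'
    obtain ⟨a, -, c⟩ := hN e he y hy
    obtain ⟨a', -, c'⟩ := hN f hf y' hy'
    refine ⟨fun r => hef (h.no_double (by norm_num) (by norm_num) a c (r ▸ c')),
      h.no_edge (by norm_num) (by norm_num) a a' c c' hef, fun r => ?_⟩
    exact hef (h.no_double (by norm_num) (by norm_num) a' (mem_att.2 ⟨he, r.symm⟩) c')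
  have hN1 : ∀ e ∈ T, 1 ≤ (N e).card := fun e he => by
    have : 4 ≤ (N e).card + 3 := h.nb_card he
    omega
  obtain ⟨a, b, c, hab, hac, hbc, hTeq⟩ := Finset.card_eq_three.1 hTc
  have ha : a ∈ T := by simp [hTeq]
  have hb : b ∈ T := by simp [hTeq]
  have hc : c ∈ T := by simp [hTeq]
  set Z := (X \ T).filter fun z => ∀ e ∈ T, ¬ G.Adj e z with hZ
  have hsplit : X.card ≤ 3 + ((N a).card + (N b).card + (N c).card + Z.card) := by
    have hsub : X ⊆ T ∪ (N a ∪ N b ∪ N c ∪ Z) := by
      intro x hx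
      by_cases hxT : x ∈ T
      · exact Finset.mem_union_left _ hxT
      refine Finset.mem_union_right _ ?_
      have hxW : x ∈ X \ T := Finset.mem_sdiff.2 ⟨hx, hxT⟩
      simp only [Finset.mem_union]
      by_cases hxa : G.Adj a x
      · exact Or.inl (Or.inl (Or.inl (mem_nb.2 ⟨hxW, hxa⟩)))
      by_cases hxb : G.Adj b x
      · exact Or.inl (Or.inl (Or.inr (mem_nb.2 ⟨hxW, hxb⟩)))
      by_cases hxc : G.Adj c x
      · exact Or.inl (Or.inr (mem_nb.2 ⟨hxW, hxc⟩))
      refine Or.inr (Finset.mem_filter.2 ⟨hxW, fun e he => ?_⟩)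
      rw [hTeq, Finset.mem_insert, Finset.mem_insert, Finset.mem_singleton] at he
      rcases he with rfl | rfl | rfl <;> assumption
    have h1 := (Finset.card_le_card hsub).trans (Finset.card_union_le _ _)
    have h2 := Finset.card_union_le (N a ∪ N b ∪ N c) Z
    have h3 := Finset.card_union_le (N a ∪ N b) (N c)
    have h5 := Finset.card_union_le (N a) (N b)
    rw [hTc] at h1
    omega
  -- each vertex away from the triangle hits one of any two representatives
  have hit : ∀ e ∈ T, ∀ f ∈ T, ∀ g ∈ T, e ≠ f → g ≠ e → g ≠ f → ∀ y ∈ N e, ∀ y' ∈ N f,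
      ∀ z ∈ Z, G.Adj z y ∨ G.Adj z y' := by
    intro e he f hf g hg hef hge hgf y hy y' hy' z hz
    by_contra hn
    push Not at hn
    rw [hZ, Finset.mem_filter] at hz
    obtain ⟨-, -, e0⟩ := hne g hg e he hge
      ((Finset.card_pos.1 (hN1 g hg)).choose) ((Finset.card_pos.1 (hN1 g hg)).choose_spec) y hy
    obtain ⟨-, -, f0⟩ := hne g hg f hf hgf
      ((Finset.card_pos.1 (hN1 g hg)).choose) ((Finset.card_pos.1 (hN1 g hg)).choose_spec) y' hy'
    obtain ⟨d1, d2, -⟩ := hne e he f hf hef y hy y' hy'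
    have w1 := (hN e he y hy).1
    have w2 := (hN f hf y' hy').1
    have gz := hz.2 g hg
    obtain ⟨n1, n2⟩ := hn
    have hi : Indep G {g, y, y', z} := by
      intro p hp q hq
      simp only [Finset.mem_insert, Finset.mem_singleton] at hp hq
      rcases hp with rfl | rfl | rfl | rfl <;> rcases hq with rfl | rfl | rfl | rfl <;>
        first
          | exact G.irrefl
          | assumption
          | exact fun r => (by assumption : ¬ G.Adj _ _) r.symm
          | exact fun r => e0 r.symm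
          | exact fun r => f0 r.symm
          | exact fun r => d2 r.symm
          | exact fun r => n1 r.symm
          | exact fun r => n2 r.symm
          | exact fun r => gz r.symm
    have hzy : z ≠ y := fun r => hz.2 e he (r ▸ (hN e he y hy).2.1)
    have hzy' : z ≠ y' := fun r => hz.2 f hf (r ▸ (hN f hf y' hy').2.1)
    have := (le_alpha (Y := X) (by
      simp [Finset.insert_subset_iff, h.sub hg, (Finset.mem_sdiff.1 w1).1,
        (Finset.mem_sdiff.1 w2).1, (Finset.mem_sdiff.1 hz.1).1]) hi).trans hC.alp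
    rw [Finset.card_eq_four.2 ⟨g, y, y', z, kw hg w1, kw hg w2, kw hg hz.1, d1, hzy.symm,
      hzy'.symm, rfl⟩] at this
    omega
  have square : ∀ z w y y', z ≠ w → y ≠ y' → G.Adj z y → G.Adj z y' → G.Adj w y → G.Adj w y' →
      False := by
    intro z w y y' h1 h2 a b c d
    refine hC.noc (hasCyc_of_list z [y, w, y'] ?_ ?_ ?_)
    · simp [a.ne, h1, b.ne, c.ne', h2, d.ne]
    · simp [a, c.symm, d]
    · simpa using b.symm
  have once : ∀ e ∈ T, ∀ y ∈ N e, ∀ y' ∈ N e, y ≠ y' → ∀ z ∈ Z, G.Adj z y → ¬ G.Adj z y' := by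
    intro e he y hy y' hy' hyy z hz h1 h2
    refine square z e y y' ?_ hyy h1 h2 (hN e he y hy).2.1 (hN e he y' hy').2.1
    intro r
    rw [hZ, Finset.mem_filter, Finset.mem_sdiff] at hz
    exact hz.1.2 (r ▸ he)
  have small : ∀ e ∈ T, (N e).card ≤ 2 := by
    intro e he
    by_contra hgt
    obtain ⟨p, hp, q, hq, r, hr, hpq, hpr, hqr⟩ := Finset.two_lt_card.1 (not_le.1 hgt)
    obtain ⟨f, hf, hfe⟩ := Finset.exists_mem_ne (by omega : 1 < T.card) e
    obtain ⟨g, hg, hgf⟩ := Finset.exists_mem_ne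
      (by rw [Finset.card_erase_of_mem he]; omega : 1 < (T.erase e).card) f
    rw [Finset.mem_erase] at hg
    obtain ⟨y, hy⟩ := Finset.card_pos.1 (hN1 f hf)
    obtain ⟨y', hy'⟩ := Finset.card_pos.1 (hN1 g hg.2)
    -- two of `p`, `q`, `r` are non-adjacent
    have hno : ∀ u ∈ N e, ∀ w ∈ N e, u ≠ w → G.Adj u w := by
      intro u hu w hw huw
      by_contra hA
      obtain ⟨a1, a2, -⟩ := hne e he f hf hfe.symm u hu y hy
      obtain ⟨b1, b2, -⟩ := hne e he g hg.2 hg.1.symm u hu y' hy'
      obtain ⟨c1, c2, -⟩ := hne e he f hf hfe.symm w hw y hy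
      obtain ⟨d1, d2, -⟩ := hne e he g hg.2 hg.1.symm w hw y' hy'
      obtain ⟨e1, e2, -⟩ := hne f hf g hg.2 hgf.symm y hy y' hy'
      have hi : Indep G {u, w, y, y'} := by
        intro p hp q hq
        simp only [Finset.mem_insert, Finset.mem_singleton] at hp hq
        rcases hp with rfl | rfl | rfl | rfl <;> rcases hq with rfl | rfl | rfl | rfl <;>
          first
            | exact G.irrefl
            | assumption
            | exact fun r => hA r.symm
            | exact fun r => a2 r.symm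
            | exact fun r => b2 r.symm
            | exact fun r => c2 r.symm
            | exact fun r => d2 r.symm
            | exact fun r => e2 r.symm
      have := (le_alpha (Y := X) (by
        simp [Finset.insert_subset_iff, (Finset.mem_sdiff.1 (hN e he u hu).1).1,
          (Finset.mem_sdiff.1 (hN e he w hw).1).1, (Finset.mem_sdiff.1 (hN f hf y hy).1).1,
          (Finset.mem_sdiff.1 (hN g hg.2 y' hy').1).1]) hi).trans hC.alp
      rw [Finset.card_eq_four.2 ⟨u, w, y, y', huw, a1, b1, c1, d1, e1, rfl⟩] at this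
      omega
    exact square e q p r (kw he (hN e he q hq).1) hpr (hN e he p hp).2.1 (hN e he r hr).2.1
      (hno q hq p hp hpq.symm) (hno q hq r hr hqr)
  have pair : ∀ e ∈ T, ∀ f ∈ T, e ≠ f → ∀ y ∈ N e, ∀ y' ∈ N f,
      (Z.filter fun z => G.Adj z y ∧ G.Adj z y').card ≤ 1 := by
    intro e he f hf hef y hy y' hy'
    rw [Finset.card_le_one]
    intro z hz w hw
    rw [Finset.mem_filter] at hz hw
    by_contra hzw
    exact square z w y y' hzw (hne e he f hf hef y hy y' hy').1 hz.2.1 hz.2.2 hw.2.1 hw.2.2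
  -- a class with two vertices
  have two : ∀ e ∈ T, ∀ f ∈ T, ∀ g ∈ T, e ≠ f → g ≠ e → g ≠ f → 2 ≤ (N e).card →
      Z.card + (N f).card ≤ 2 := by
    intro e he f hf g hg hef hge hgf h2
    obtain ⟨p, hp, q, hq, hpq⟩ := Finset.one_lt_card.1 h2
    have key : ∀ f' ∈ T, ∀ g' ∈ T, e ≠ f' → g' ≠ e → g' ≠ f' → ∀ y ∈ N f', ∀ z ∈ Z, G.Adj z y := by
      intro f' hf' g' hg' h1 h2 h3 y hy z hz
      rcases hit e he f' hf' g' hg' h1 h2 h3 p hp y hy z hz with r | r
      · exact (hit e he f' hf' g' hg' h1 h2 h3 q hq y hy z hz).resolve_left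
          (once e he p hp q hq hpq z hz r)
      · exact r
    rcases Z.eq_empty_or_nonempty with h0 | ⟨z, hz⟩
    · rw [h0]
      simpa using small f hf
    have h1 : (N f).card ≤ 1 := by
      rw [Finset.card_le_one]
      intro u hu w hw
      by_contra huw
      exact once f hf u hu w hw huw z hz (key f hf g hg hef hge hgf u hu z hz)
        (key f hf g hg hef hge hgf w hw z hz)
    obtain ⟨y, hy⟩ := Finset.card_pos.1 (hN1 f hf)
    obtain ⟨y', hy'⟩ := Finset.card_pos.1 (hN1 g hg)
    have h2 := pair f hf g hg hgf.symm y hy y' hy'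
    rw [Finset.filter_true_of_mem fun z hz => ⟨key f hf g hg hef hge hgf y hy z hz,
      key g hg f hf hge.symm hef.symm hgf.symm y' hy' z hz⟩] at h2
    omega
  have sa := small a ha
  have sb := small b hb
  have sc := small c hc
  by_cases ha2 : 2 ≤ (N a).card
  · have := two a ha b hb c hc hab hac.symm hbc.symm ha2
    omega
  by_cases hb2 : 2 ≤ (N b).card
  · have := two b hb a ha c hc hab.symm hbc.symm hac.symm hb2
    omega
  by_cases hc2 : 2 ≤ (N c).card
  · have := two c hc a ha b hb hac.symm hbc hab.symm hc2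
    omega
  obtain ⟨ya, hya⟩ := Finset.card_pos.1 (hN1 a ha)
  obtain ⟨yb, hyb⟩ := Finset.card_pos.1 (hN1 b hb)
  obtain ⟨yc, hyc⟩ := Finset.card_pos.1 (hN1 c hc)
  have hsub : Z ⊆ (Z.filter fun z => G.Adj z ya ∧ G.Adj z yb) ∪
      (Z.filter fun z => G.Adj z ya ∧ G.Adj z yc) ∪ Z.filter fun z => G.Adj z yb ∧ G.Adj z yc := by
    intro z hz
    have h1 := hit a ha b hb c hc hab hac.symm hbc.symm ya hya yb hyb z hz
    have h2 := hit a ha c hc b hb hac hab.symm hbc ya hya yc hyc z hz
    have h3 := hit b hb c hc a ha hbc hab hac yb hyb yc hyc z hz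
    simp only [Finset.mem_union, Finset.mem_filter, hz, true_and]
    tauto
  have h1 := (Finset.card_le_card hsub).trans ((Finset.card_union_le _ _).trans
    (Nat.add_le_add_right (Finset.card_union_le _ _) _))
  have := pair a ha b hb hab ya hya yb hyb
  have := pair a ha c hc hac ya hya yc hyc
  have := pair b hb c hc hbc yb hyb yc hyc
  omega

end Vale.Agent.P048.Full.Small
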