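import Vale.Agent.P048.Full.Small.Ears

/-!
P048: for cycles on seven vertices there is no clique on four vertices when `k ≤ 6`.
-/

open scoped Classical

namespace Vale.Agent.P048.Full.Small

variable {V : Type*} {G : SimpleGraph V} {k : ℕ} {X K : Finset V}

/-- Vertices attached to exactly one clique vertex. -/
noncomputable def priv (G : SimpleGraph V) (X K : Finset V) (e : V) : Finset V :=
  (X \ K).filter fun y => att G K y = {e}

/-- Vertices attached to at least two clique vertices. -/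
noncomputable def multi (G : SimpleGraph V) (X K : Finset V) : Finset V :=
  (X \ K).filter fun y => 2 ≤ (att G K y).card

variable (h : Setup G 7 k 4 X K) (hk : k ≤ 6)
include h

lemma Setup.cover {e y : V} (hy : y ∈ nb G e (X \ K)) (he : e ∈ K) :
    y ∈ priv G X K e ∨ y ∈ multi G X K ∧ e ∈ att G K y := by
  rw [mem_nb] at hy
  have h2 : e ∈ att G K y := mem_att.2 ⟨he, hy.2.symm⟩
  by_cases h1 : (att G K y).card ≤ 1
  · refine Or.inl (Finset.mem_filter.2 ⟨hy.1, Finset.eq_singleton_iff_unique_mem.2 ⟨h2, ?_⟩⟩)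
    exact fun f hf => Finset.card_le_one.1 h1 f hf e h2
  · exact Or.inr ⟨Finset.mem_filter.2 ⟨hy.1, by omega⟩, h2⟩

/-- An edge between different attachments and a further doubly attached vertex. -/
lemma Setup.ear21 {y y' x e f : V} (hy : y ∈ X \ K) (hy' : y' ∈ X \ K) (hA : G.Adj y y')
    (he : e ∈ att G K y) (hf : f ∈ att G K y') (hne : e ≠ f) (hx : x ∈ multi G X K)
    (hxy : x ≠ y) (hxy' : x ≠ y') : att G K x = {e, f} := by
  obtain ⟨hxW, hx2⟩ := Finset.mem_filter.1 hx
  rw [mem_att] at he hf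
  have shared : ∀ g ∈ att G K x, f ∈ att G K x → g = e ∨ g = f := by
    intro g hg hfx
    by_contra hn
    push Not at hn
    rw [mem_att] at hg hfx
    refine h.cx.noc (fill h.cl e g [y, y', f, x] [f] ?_ ?_ ⟨he.1, hg.1⟩ ?_ (by simp) ?_)
    · simp [kw he.1 hy, kw he.1 hy', hne, kw he.1 hxW, hn.1.symm, hA.ne, (kw hf.1 hy).symm,
        hxy.symm, (kw hg.1 hy).symm, (kw hf.1 hy').symm, hxy'.symm, (kw hg.1 hy').symm,
        kw hf.1 hxW, hn.2.symm, (kw hg.1 hxW).symm]
    · simp [he.2.symm, hA, hf.2, hfx.2.symm, hg.2]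
    · simp [(Finset.mem_sdiff.1 hy).2, (Finset.mem_sdiff.1 hy').2, (Finset.mem_sdiff.1 hxW).2]
    · simp [h.card]
  have shared' : ∀ g ∈ att G K x, e ∈ att G K x → g = e ∨ g = f := by
    intro g hg hex
    by_contra hn
    push Not at hn
    rw [mem_att] at hg hex
    refine h.cx.noc (fill h.cl f g [y', y, e, x] [e] ?_ ?_ ⟨hf.1, hg.1⟩ ?_ (by simp) ?_)
    · simp [kw hf.1 hy', kw hf.1 hy, hne.symm, kw hf.1 hxW, hn.2.symm, hA.ne', (kw he.1 hy').symm,
        hxy'.symm, (kw hg.1 hy').symm, (kw he.1 hy).symm, hxy.symm, (kw hg.1 hy).symm,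
        kw he.1 hxW, hn.1.symm, (kw hg.1 hxW).symm]
    · simp [hf.2.symm, hA.symm, he.2, hex.2.symm, hg.2]
    · simp [(Finset.mem_sdiff.1 hy).2, (Finset.mem_sdiff.1 hy').2, (Finset.mem_sdiff.1 hxW).2]
    · simp [h.card]
  by_cases hfx : f ∈ att G K x
  · refine Finset.eq_of_subset_of_card_le (fun g hg => ?_) (Finset.card_le_two.trans hx2)
    rcases shared g hg hfx with r | r <;> simp [r]
  by_cases hex : e ∈ att G K x
  · refine Finset.eq_of_subset_of_card_le (fun g hg => ?_) (Finset.card_le_two.trans hx2)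
    rcases shared' g hg hex with r | r <;> simp [r]
  exfalso
  obtain ⟨g, hg, g', hg', hgg⟩ := Finset.one_lt_card.1 hx2
  have e1 : g ≠ e := fun r => hex (r ▸ hg)
  have e2 : g ≠ f := fun r => hfx (r ▸ hg)
  have e3 : g' ≠ e := fun r => hex (r ▸ hg')
  have e4 : g' ≠ f := fun r => hfx (r ▸ hg')
  rw [mem_att] at hg hg'
  refine h.cx.noc (fill h.cl e g' [y, y', f, g, x] [f, g] ?_ ?_ ⟨he.1, hg'.1⟩ ?_ (by simp) ?_)
  · simp [kw he.1 hy, kw he.1 hy', hne, e1.symm, kw he.1 hxW, e3.symm, hA.ne, (kw hf.1 hy).symm,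
      (kw hg.1 hy).symm, hxy.symm, (kw hg'.1 hy).symm, (kw hf.1 hy').symm, (kw hg.1 hy').symm,
      hxy'.symm, (kw hg'.1 hy').symm, e2.symm, kw hf.1 hxW, e4.symm, kw hg.1 hxW, hgg,
      (kw hg'.1 hxW).symm]
  · simp [he.2.symm, hA, hf.2, h.cl hf.1 hg.1 e2.symm, hg.2.symm, hg'.2]
  · simp [(Finset.mem_sdiff.1 hy).2, (Finset.mem_sdiff.1 hy').2, (Finset.mem_sdiff.1 hxW).2]
  · simp [h.card]

include hk

/-- Four separated vertices with at most two attachments each are too many. -/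
lemma Setup.four_reps (R : Finset V) (hR : R ⊆ X \ K) (h4 : 4 ≤ R.card)
    (h2 : ∀ y ∈ R, (att G K y).card ≤ 2)
    (hd : ∀ y ∈ R, ∀ y' ∈ R, y ≠ y' →
      ¬ G.Adj y y' ∧ ∃ e ∈ att G K y, ∃ f ∈ att G K y', e ≠ f) : False := by
  have h1 := h.units_le (by norm_num) (by norm_num) R hR hd
  have h3 : ∑ _y ∈ R, 2 ≤ ∑ y ∈ R, alpha G (unit G X K y) := Finset.sum_le_sum fun y hy =>
    h.two_le_unit (by have := h2 y hy; omega) (hR hy)
  rw [Finset.sum_const, smul_eq_mul] at h3
  omega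

/-- One private vertex for every clique vertex, pairwise non-adjacent, is too much. -/
lemma Setup.priv_reps (R : Finset V) (hR : ∀ e ∈ K, ∃ y ∈ R, y ∈ priv G X K e)
    (hsub : ∀ y ∈ R, ∃ e ∈ K, y ∈ priv G X K e)
    (hA : ∀ y ∈ R, ∀ y' ∈ R, ¬ G.Adj y y')
    (hone : ∀ y ∈ R, ∀ y' ∈ R, att G K y = att G K y' → y = y') : False := by
  refine h.four_reps hk R (fun y hy => ?_) ?_ (fun y hy => ?_) fun y hy y' hy' hne => ?_
  · obtain ⟨e, -, he⟩ := hsub y hy
    exact (Finset.mem_filter.1 he).1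
  · have h1 : K ⊆ R.biUnion (att G K) := by
      intro e he
      obtain ⟨y, hy, hye⟩ := hR e he
      exact Finset.mem_biUnion.2 ⟨y, hy, by simp [(Finset.mem_filter.1 hye).2]⟩
    have h2 := (Finset.card_le_card h1).trans Finset.card_biUnion_le
    have h3 : ∑ y ∈ R, (att G K y).card ≤ ∑ _y ∈ R, 1 := Finset.sum_le_sum fun y hy => by
      obtain ⟨e, -, he⟩ := hsub y hy
      simp [(Finset.mem_filter.1 he).2]
    rw [h.card] at h2
    simp only [Finset.sum_const, smul_eq_mul, mul_one] at h3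
    omega
  · obtain ⟨e, -, he⟩ := hsub y hy
    simp [(Finset.mem_filter.1 he).2]
  · obtain ⟨e, -, he⟩ := hsub y hy
    obtain ⟨f, -, hf⟩ := hsub y' hy'
    have he' := (Finset.mem_filter.1 he).2
    have hf' := (Finset.mem_filter.1 hf).2
    refine ⟨hA y hy y' hy', e, by simp [he'], f, by simp [hf'], fun hef => hne ?_⟩
    exact hone y hy y' hy' (by rw [he', hf', hef])

/-- No doubly attached vertex: the cross edges form stars. -/
lemma Setup.no_multi_none (h0 : multi G X K = ∅) : False := by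
  set P := (X \ K).filter fun y => (att G K y).card = 1 with hP
  let H : V → Finset V := fun y => P.filter fun z => G.Adj y z ∧ att G K y ≠ att G K z
  have hH : ∀ y z, z ∈ H y ↔ z ∈ P ∧ G.Adj y z ∧ att G K y ≠ att G K z := fun y z => by simp [H]
  have hPm : ∀ y ∈ P, y ∈ X \ K ∧ ∃ e ∈ K, att G K y = {e} ∧ G.Adj y e := by
    intro y hy
    obtain ⟨h1, h2⟩ := Finset.mem_filter.1 hy
    obtain ⟨e, he⟩ := Finset.card_eq_one.1 h2
    have := mem_att.1 (show e ∈ att G K y by simp [he])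
    exact ⟨h1, e, this.1, he, this.2⟩
  have hpriv : ∀ e ∈ K, priv G X K e ⊆ P := by
    intro e _ y hy
    obtain ⟨h1, h2⟩ := Finset.mem_filter.1 hy
    exact Finset.mem_filter.2 ⟨h1, by simp [h2]⟩
  have hcard : ∀ e ∈ K, 3 ≤ (priv G X K e).card := by
    intro e he
    have h1 := h.nb_card he
    have h2 : nb G e (X \ K) ⊆ priv G X K e := fun y hy => by
      rcases h.cover hy he with r | r
      · exact r
      · simp [h0] at r
    have := Finset.card_le_card h2
    omega
  -- the cross neighbours of one vertex are in one class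
  have F1 : ∀ y ∈ P, ∀ z ∈ H y, ∀ z' ∈ H y, att G K z = att G K z' := by
    intro y hy z hz z' hz'
    by_contra hne
    rw [hH] at hz hz'
    obtain ⟨hyW, -⟩ := hPm y hy
    obtain ⟨hzW, f, hfK, hf, hzf⟩ := hPm z hz.1
    obtain ⟨hzW', g, hgK, hg, hzg⟩ := hPm z' hz'.1
    have hfg : f ≠ g := fun r => hne (by rw [hf, hg, r])
    refine h.cx.noc (fill h.cl f g [z, y, z'] [] ?_ ?_ ⟨hfK, hgK⟩ ?_ (by simp) ?_)
    · simp [kw hfK hzW, kw hfK hyW, kw hfK hzW', hfg, hz.2.1.ne', hz'.2.1.ne,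
        (kw hgK hzW).symm, (kw hgK hyW).symm, (kw hgK hzW').symm,
        show z ≠ z' from fun r => hne (by rw [r])]
    · simp [hzf.symm, hz.2.1.symm, hz'.2.1, hzg]
    · simp [(Finset.mem_sdiff.1 hyW).2, (Finset.mem_sdiff.1 hzW).2, (Finset.mem_sdiff.1 hzW').2]
    · simp [h.card]
  -- a vertex with a cross neighbour has no neighbour in its own class
  have F2 : ∀ y ∈ P, ∀ z ∈ H y, ∀ w ∈ P, att G K w = att G K z → ¬ G.Adj z w := by
    intro y hy z hz w hw hwz hA
    rw [hH] at hz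
    obtain ⟨hyW, e, heK, he, hye⟩ := hPm y hy
    obtain ⟨hzW, f, hfK, hf, -⟩ := hPm z hz.1
    obtain ⟨hwW, f', hfK', hf', hwf⟩ := hPm w hw
    have hef : e ≠ f' := fun r => hz.2.2 (by rw [← hwz, he, hf', r])
    refine h.cx.noc (fill h.cl e f' [y, z, w] [] ?_ ?_ ⟨heK, hfK'⟩ ?_ (by simp) ?_)
    · simp [kw heK hyW, kw heK hzW, kw heK hwW, hef, hz.2.1.ne, hA.ne,
        (kw hfK' hyW).symm, (kw hfK' hzW).symm, (kw hfK' hwW).symm,
        show y ≠ w from fun r => hz.2.2 (by rw [← hwz, r])]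
    · simp [hye.symm, hz.2.1, hA, hwf]
    · simp [(Finset.mem_sdiff.1 hyW).2, (Finset.mem_sdiff.1 hzW).2, (Finset.mem_sdiff.1 hwW).2]
    · simp [h.card]
  -- no path on four vertices
  have F3 : ∀ y ∈ P, ∀ z ∈ H y, ∀ z' ∈ H y, z ≠ z' → ∀ w ∈ H z, w = y := by
    intro y hy z hz z' hz' hzz w hw
    by_contra hwy
    have e1 := F1 y hy z hz z' hz'
    have hzP := ((hH y z).1 hz).1
    have hyz : y ∈ H z :=
      (hH z y).2 ⟨hy, ((hH y z).1 hz).2.1.symm, fun r => ((hH y z).1 hz).2.2 r.symm⟩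
    have e2 := F1 z hzP y hyz w hw
    rw [hH] at hz hz' hw
    obtain ⟨hyW, -⟩ := hPm y hy
    obtain ⟨hzW, -⟩ := hPm z hzP
    obtain ⟨hzW', f, hfK, hf, hzf⟩ := hPm z' hz'.1
    obtain ⟨hwW, e, heK, he, hwe⟩ := hPm w hw.1
    have hne : f ≠ e := fun r => hw.2.2 (by rw [e1, hf, he, r])
    refine h.cx.noc (fill h.cl f e [z', y, z, w] [] ?_ ?_ ⟨hfK, heK⟩ ?_ (by simp) ?_)
    · simp [kw hfK hzW', kw hfK hyW, kw hfK hzW, kw hfK hwW, hne, hz'.2.1.ne', hzz.symm,
        show z' ≠ w from fun r => hz'.2.2 (by rw [e2, r]),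
        (kw heK hzW').symm, hz.2.1.ne, Ne.symm hwy, (kw heK hyW).symm, hw.2.1.ne,
        (kw heK hzW).symm, (kw heK hwW).symm]
    · simp [hzf.symm, hz'.2.1.symm, hz.2.1, hw.2.1, hwe]
    · simp [(Finset.mem_sdiff.1 hyW).2, (Finset.mem_sdiff.1 hzW).2, (Finset.mem_sdiff.1 hzW').2,
        (Finset.mem_sdiff.1 hwW).2]
    · simp [h.card]
  set C := P.filter fun y => 2 ≤ (H y).card with hC
  have hCm : ∀ c ∈ C, c ∈ P ∧ 2 ≤ (H c).card := fun c hc => Finset.mem_filter.1 hc
  have hdisj : ∀ c ∈ C, ∀ c' ∈ C, c ≠ c' → Disjoint (H c) (H c') := by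
    intro c hc c' hc' hne
    rw [Finset.disjoint_left]
    intro z hz hz'
    obtain ⟨z2, hz2, hz2z⟩ := Finset.exists_mem_ne (hCm c hc).2 z
    have := (hH c' z).1 hz'
    exact hne (F3 c (hCm c hc).1 z hz z2 hz2 hz2z.symm c'
      ((hH z c').2 ⟨(hCm c' hc').1, this.2.1.symm, fun r => this.2.2 r.symm⟩)).symm
  have hind : Indep G (C.biUnion H) := by
    intro z hz w hw hA
    obtain ⟨c, hc, hz⟩ := Finset.mem_biUnion.1 hz
    obtain ⟨c', hc', hw⟩ := Finset.mem_biUnion.1 hw
    have hwP := ((hH c' w).1 hw).1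
    by_cases he : att G K w = att G K z
    · exact F2 c (hCm c hc).1 z hz w hwP he hA
    obtain ⟨z2, hz2, hz2z⟩ := Finset.exists_mem_ne (hCm c hc).2 z
    have e1 := F3 c (hCm c hc).1 z hz z2 hz2 hz2z.symm w
      ((hH z w).2 ⟨hwP, hA, fun r => he r.symm⟩)
    subst e1
    obtain ⟨w2, hw2, hw2w⟩ := Finset.exists_mem_ne (hCm c' hc').2 w
    have hc'w : c' ∈ H w := by
      have := (hH c' w).1 hw
      exact (hH w c').2 ⟨(hCm c' hc').1, this.2.1.symm, fun r => this.2.2 r.symm⟩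
    have e2 := F3 c' (hCm c' hc').1 w hw w2 hw2 hw2w.symm z hz
    subst e2
    obtain ⟨z3, hz3, hz3z⟩ := Finset.exists_mem_ne (hCm w hc).2 z
    have := F3 w (hCm w hc).1 z hz z3 hz3 hz3z.symm w2 hw2
    exact hw2w this
  have hcount : 2 * C.card ≤ (C.biUnion H).card := by
    rw [Finset.card_biUnion hdisj]
    refine le_trans (le_of_eq ?_) (Finset.sum_le_sum fun c hc => (hCm c hc).2)
    simp [Nat.mul_comm]
  have hLX : C.biUnion H ⊆ X := fun z hz => by
    obtain ⟨c, -, hz⟩ := Finset.mem_biUnion.1 hz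
    exact (Finset.mem_sdiff.1 (hPm z ((hH c z).1 hz).1).1).1
  have hC3 : C.card ≤ 3 := by
    have := (le_alpha hLX hind).trans h.cx.alp
    omega
  -- no class consists of three centres
  have hCe : ∀ e ∈ K, (C.filter fun c => att G K c = {e}).card ≤ 2 := by
    intro e he
    by_contra hgt
    have hall : C.filter (fun c => att G K c = {e}) = C :=
      Finset.eq_of_subset_of_card_le (Finset.filter_subset _ _) (by omega)
    have hi : Indep G (insert e (C.biUnion H)) := by
      have key : ∀ z ∈ C.biUnion H, ¬ G.Adj e z := by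
        intro z hz hA
        obtain ⟨c, hc, hz⟩ := Finset.mem_biUnion.1 hz
        rw [hH] at hz
        obtain ⟨-, f, -, hf, -⟩ := hPm z hz.1
        have : e ∈ att G K z := mem_att.2 ⟨he, hA.symm⟩
        rw [← hall] at hc
        rw [hf, Finset.mem_singleton] at this
        exact hz.2.2 (by rw [(Finset.mem_filter.1 hc).2, hf, this])
      intro a ha b hb
      rcases Finset.mem_insert.1 ha with rfl | haS <;> rcases Finset.mem_insert.1 hb with rfl | hbS
      · exact G.irrefl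
      · exact key b hbS
      · exact fun r => key a haS r.symm
      · exact hind a haS b hbS
    have h1 := le_alpha (Finset.insert_subset (h.sub he) hLX) hi
    rw [Finset.card_insert_of_notMem (fun r => by
      obtain ⟨c, -, hc⟩ := Finset.mem_biUnion.1 r
      exact (Finset.mem_sdiff.1 (hPm e ((hH c e).1 hc).1).1).2 he)] at h1
    have := h.cx.alp
    have : C.card ≥ 3 := hall ▸ (by omega)
    omega
  let L : V → Finset V := fun e => priv G X K e \ C
  have hL : ∀ e ∈ K, 3 ≤ (L e).card + (C.filter fun c => att G K c = {e}).card := by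
    intro e he
    have h1 : priv G X K e ⊆ L e ∪ C.filter (fun c => att G K c = {e}) := by
      intro y hy
      by_cases hyC : y ∈ C
      · exact Finset.mem_union_right _ (Finset.mem_filter.2 ⟨hyC, (Finset.mem_filter.1 hy).2⟩)
      · exact Finset.mem_union_left _ (Finset.mem_sdiff.2 ⟨hy, hyC⟩)
    have := (Finset.card_le_card h1).trans (Finset.card_union_le _ _)
    have := hcard e he
    omega
  obtain ⟨a, ha, hbest⟩ : ∃ a ∈ K, ∀ e ∈ K, e ≠ a → 2 ≤ (L e).card := by
    by_contra hn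
    push Not at hn
    obtain ⟨a, ha⟩ := Finset.card_pos.1 (by rw [h.card]; omega : 0 < K.card)
    obtain ⟨b, hb, -, hb1⟩ := hn a ha
    obtain ⟨c, hc, hcb, hc1⟩ := hn b hb
    have h1 := hL b hb
    have h2 := hL c hc
    have hd : Disjoint (C.filter fun z => att G K z = {b}) (C.filter fun z => att G K z = {c}) :=
      Finset.disjoint_left.2 fun z h1 h2 => hcb (Finset.singleton_injective
        ((Finset.mem_filter.1 h2).2.symm.trans (Finset.mem_filter.1 h1).2))
    have h3 := Finset.card_union_of_disjoint hd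
    have h4 : ((C.filter fun z => att G K z = {b}) ∪ C.filter fun z => att G K z = {c}).card ≤
        C.card :=
      Finset.card_le_card (Finset.union_subset (Finset.filter_subset _ _) (Finset.filter_subset _ _))
    omega
  have hLP : ∀ e ∈ K, ∀ y ∈ L e, y ∈ P ∧ y ∈ priv G X K e ∧ (H y).card ≤ 1 := by
    intro e he y hy
    obtain ⟨h1, h2⟩ := Finset.mem_sdiff.1 hy
    refine ⟨hpriv e he h1, h1, ?_⟩
    by_contra hgt
    exact h2 (Finset.mem_filter.2 ⟨hpriv e he h1, by omega⟩)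
  have trans : ∀ n, ∀ R : Finset V, R.card = n → R ⊆ K → (∀ e ∈ R, 2 ≤ (L e).card) →
      ∀ y ∈ P, (H y).card ≤ 1 → (∀ e ∈ R, att G K y ≠ {e}) →
      ∃ S : Finset V, (∀ e ∈ R, ∃ z ∈ S, z ∈ L e) ∧ (∀ z ∈ S, ∃ e ∈ R, z ∈ L e) ∧
        (∀ z ∈ S, ∀ z' ∈ S, ¬ G.Adj z z') ∧
        (∀ z ∈ S, ∀ z' ∈ S, att G K z = att G K z' → z = z') ∧ ∀ z ∈ S, ¬ G.Adj y z := by
    intro n
    induction n with
    | zero =>
      intro R hR _ _ y _ _ _
      exact ⟨∅, by simp [Finset.card_eq_zero.1 hR]⟩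
    | succ n ih =>
      intro R hR hRK h2 y hy hy1 hyR
      obtain ⟨e, he, z, hz, hyz, hrest⟩ : ∃ e ∈ R, ∃ z ∈ L e, ¬ G.Adj y z ∧
          ∀ e' ∈ R, e' ≠ e → ∀ z' ∈ L e', ¬ G.Adj y z' := by
        have inH : ∀ e' ∈ R, ∀ z' ∈ L e', G.Adj y z' → z' ∈ H y := by
          intro e' he' z' hz' hA
          obtain ⟨h1, h3, -⟩ := hLP e' (hRK he') z' hz'
          exact (hH y z').2 ⟨h1, hA, fun r => hyR e' he' (r.trans (Finset.mem_filter.1 h3).2)⟩
        by_cases hn : ∃ e ∈ R, ∃ z ∈ L e, G.Adj y z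
        · obtain ⟨e, he, w, hw, hA⟩ := hn
          obtain ⟨z, hz, hzw⟩ := Finset.exists_mem_ne (h2 e he) w
          have hu : ∀ e' ∈ R, ∀ z' ∈ L e', G.Adj y z' → z' = w := fun e' he' z' hz' hA' =>
            Finset.card_le_one.1 hy1 z' (inH e' he' z' hz' hA') w (inH e he w hw hA)
          refine ⟨e, he, z, hz, fun hA' => hzw (hu e he z hz hA'), fun e' he' hne z' hz' hA' => ?_⟩
          have h4 := (Finset.mem_filter.1 (hLP e' (hRK he') z' hz').2.1).2
          rw [hu e' he' z' hz' hA', (Finset.mem_filter.1 (hLP e (hRK he) w hw).2.1).2] at h4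
          exact hne (Finset.singleton_injective h4).symm
        · push Not at hn
          obtain ⟨e, he⟩ := Finset.card_pos.1 (by omega : 0 < R.card)
          obtain ⟨z, hz⟩ := Finset.card_pos.1 (by have := h2 e he; omega : 0 < (L e).card)
          exact ⟨e, he, z, hz, hn e he z hz, fun e' he' _ => hn e' he'⟩
      obtain ⟨hzP, hzp, hz1⟩ := hLP e (hRK he) z hz
      have hza := (Finset.mem_filter.1 hzp).2
      obtain ⟨S, s1, s2, s3, s4, s5⟩ := ih (R.erase e) (by rw [Finset.card_erase_of_mem he]; omega)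
        ((Finset.erase_subset _ _).trans hRK) (fun e' he' => h2 e' (Finset.mem_of_mem_erase he'))
        z hzP hz1 (fun e' he' r => (Finset.mem_erase.1 he').1
          (Finset.singleton_injective (hza.symm.trans r)).symm)
      have hS : ∀ w ∈ S, att G K w ≠ {e} := by
        intro w hw r
        obtain ⟨e', he', hw'⟩ := s2 w hw
        rw [Finset.mem_erase] at he'
        rw [(Finset.mem_filter.1 (hLP e' (hRK he'.2) w hw').2.1).2] at r
        exact he'.1 (Finset.singleton_injective r)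
      refine ⟨insert z S, ?_, ?_, ?_, ?_, ?_⟩
      · intro e' he'
        rcases eq_or_ne e' e with rfl | hne
        · exact ⟨z, Finset.mem_insert_self _ _, hz⟩
        · obtain ⟨w, hw, hw'⟩ := s1 e' (Finset.mem_erase.2 ⟨hne, he'⟩)
          exact ⟨w, Finset.mem_insert_of_mem hw, hw'⟩
      · intro w hw
        rcases Finset.mem_insert.1 hw with rfl | hw
        · exact ⟨e, he, hz⟩
        · obtain ⟨e', he', hw'⟩ := s2 w hw
          exact ⟨e', Finset.mem_of_mem_erase he', hw'⟩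
      · intro w hw w' hw'
        rcases Finset.mem_insert.1 hw with rfl | hwS <;> rcases Finset.mem_insert.1 hw' with rfl | hwS'
        · exact G.irrefl
        · exact s5 w' hwS'
        · exact fun r => s5 w hwS r.symm
        · exact s3 w hwS w' hwS'
      · intro w hw w' hw' r
        rcases Finset.mem_insert.1 hw with rfl | hwS <;> rcases Finset.mem_insert.1 hw' with rfl | hwS'
        · rfl
        · exact absurd (r.symm.trans hza) (hS w' hwS')
        · exact absurd (r.trans hza) (hS w hwS)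
        · exact s4 w hwS w' hwS' r
      · intro w hw
        rcases Finset.mem_insert.1 hw with rfl | hw
        · exact hyz
        · obtain ⟨e', he', hw'⟩ := s2 w hw
          rw [Finset.mem_erase] at he'
          exact hrest e' he'.2 he'.1 w hw'
  obtain ⟨y, hy⟩ := Finset.card_pos.1
    (by have := hL a ha; have := hCe a ha; omega : 0 < (L a).card)
  obtain ⟨hyP, hyp, hy1⟩ := hLP a ha y hy
  have hya := (Finset.mem_filter.1 hyp).2
  obtain ⟨S, s1, s2, s3, s4, s5⟩ := trans _ (K.erase a) rfl (Finset.erase_subset _ _)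
    (fun e he => hbest e (Finset.mem_of_mem_erase he) (Finset.mem_erase.1 he).1) y hyP hy1
    (fun e he r => (Finset.mem_erase.1 he).1 (Finset.singleton_injective (hya.symm.trans r)).symm)
  have hS : ∀ w ∈ S, att G K w ≠ {a} ∧ ∃ e ∈ K, w ∈ priv G X K e := by
    intro w hw
    obtain ⟨e, he, hw'⟩ := s2 w hw
    rw [Finset.mem_erase] at he
    have h1 := (hLP e he.2 w hw').2.1
    exact ⟨fun r => he.1 (Finset.singleton_injective ((Finset.mem_filter.1 h1).2.symm.trans r)),
      e, he.2, h1⟩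
  refine h.priv_reps hk (insert y S) ?_ ?_ ?_ ?_
  · intro e he
    rcases eq_or_ne e a with rfl | hne
    · exact ⟨y, Finset.mem_insert_self _ _, hyp⟩
    · obtain ⟨w, hw, hw'⟩ := s1 e (Finset.mem_erase.2 ⟨hne, he⟩)
      exact ⟨w, Finset.mem_insert_of_mem hw, (hLP e he w hw').2.1⟩
  · intro w hw
    rcases Finset.mem_insert.1 hw with rfl | hw
    · exact ⟨a, ha, hyp⟩
    · exact (hS w hw).2
  · intro w hw w' hw'
    rcases Finset.mem_insert.1 hw with rfl | hwS <;> rcases Finset.mem_insert.1 hw' with rfl | hwS'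
    · exact G.irrefl
    · exact s5 w' hwS'
    · exact fun r => s5 w hwS r.symm
    · exact s3 w hwS w' hwS'
  · intro w hw w' hw' r
    rcases Finset.mem_insert.1 hw with rfl | hwS <;> rcases Finset.mem_insert.1 hw' with rfl | hwS'
    · rfl
    · exact absurd (r.symm.trans hya) (hS w' hwS').1
    · exact absurd (r.trans hya) (hS w hwS).1
    · exact s4 w hwS w' hwS' r

/-- Exactly one doubly attached vertex. -/
lemma Setup.no_multi_one {x : V} (h1 : multi G X K = {x}) : False := by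
  have hx : x ∈ multi G X K := by simp [h1]
  have hpc : ∀ e ∈ K, 2 ≤ (priv G X K e).card := by
    intro e he
    have h3 := h.nb_card he
    have h2 : nb G e (X \ K) ⊆ priv G X K e ∪ {x} := fun y hy => by
      rcases h.cover hy he with r | r
      · exact Finset.mem_union_left _ r
      · exact Finset.mem_union_right _ (h1 ▸ r.1)
    have := (Finset.card_le_card h2).trans (Finset.card_union_le _ _)
    simp at this
    omega
  have hp : ∀ e, ∀ y ∈ priv G X K e, y ∈ X \ K ∧ e ∈ att G K y ∧ x ≠ y ∧ att G K y = {e} := by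
    intro e y hy
    obtain ⟨a, b⟩ := Finset.mem_filter.1 hy
    refine ⟨a, by simp [b], fun r => ?_, b⟩
    have := (Finset.mem_filter.1 hx).2
    rw [r, b] at this
    simp at this
  have hedge : ∀ e f, e ≠ f → ∀ y ∈ priv G X K e, ∀ z ∈ priv G X K f, G.Adj y z →
      att G K x = {e, f} := fun e f hne y hy z hz hA =>
    h.ear21 (hp e y hy).1 (hp f z hz).1 hA (hp e y hy).2.1 (hp f z hz).2.1 hne hx
      (hp e y hy).2.2.1 (hp f z hz).2.2.1
  -- the only possibly linked pair
  obtain ⟨a, b, ha, hb, hab, hcov⟩ : ∃ a b, a ∈ K ∧ b ∈ K ∧ a ≠ b ∧ ∀ e f, e ≠ f →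
      att G K x = {e, f} → (e = a ∧ f = b) ∨ (e = b ∧ f = a) := by
    by_cases h2 : (att G K x).card = 2
    · obtain ⟨a, b, hab, he⟩ := Finset.card_eq_two.1 h2
      refine ⟨a, b, (mem_att.1 (show a ∈ att G K x by simp [he])).1,
        (mem_att.1 (show b ∈ att G K x by simp [he])).1, hab, fun e f hne r => ?_⟩
      have h3 : e ∈ ({a, b} : Finset V) := by rw [← he, r]; simp
      have h4 : f ∈ ({a, b} : Finset V) := by rw [← he, r]; simp
      simp only [Finset.mem_insert, Finset.mem_singleton] at h3 h4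
      rcases h3 with rfl | rfl <;> rcases h4 with rfl | rfl
      · exact absurd rfl hne
      · exact Or.inl ⟨rfl, rfl⟩
      · exact Or.inr ⟨rfl, rfl⟩
      · exact absurd rfl hne
    · obtain ⟨a, ha, b, hb, hab⟩ := Finset.one_lt_card.1 (by rw [h.card]; omega : 1 < K.card)
      exact ⟨a, b, ha, hb, hab, fun e f hne r => absurd (r ▸ Finset.card_pair hne) h2⟩
  obtain ⟨a1, ha1, a2, ha2, haa⟩ := Finset.one_lt_card.1 (hpc a ha)
  obtain ⟨b1, hb1, b2, hb2, hbb⟩ := Finset.one_lt_card.1 (hpc b hb)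
  obtain ⟨p, hp1, q, hq1, hpq⟩ : ∃ p ∈ priv G X K a, ∃ q ∈ priv G X K b, ¬ G.Adj p q := by
    by_contra hn
    push Not at hn
    obtain ⟨w1, -, -, x1⟩ := hp a a1 ha1
    obtain ⟨w2, -, -, x2⟩ := hp a a2 ha2
    obtain ⟨w3, -, -, x3⟩ := hp b b1 hb1
    obtain ⟨w4, -, -, x4⟩ := hp b b2 hb2
    have hne : ∀ u v, att G K u = {a} → att G K v = {b} → u ≠ v := fun u v hu hv r =>
      hab (Finset.singleton_injective (hu.symm.trans (r ▸ hv)))
    have e1 := (mem_att.1 (show a ∈ att G K a1 by simp [x1])).2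
    have e2 := (mem_att.1 (show b ∈ att G K b2 by simp [x4])).2
    refine h.cx.noc (fill h.cl a b [a1, b1, a2, b2] [] ?_ ?_ ⟨ha, hb⟩ ?_ (by simp) ?_)
    · simp [kw ha w1, kw ha w2, kw ha w3, kw ha w4, hab, haa, hne a1 b1 x1 x3, hne a1 b2 x1 x4,
        (hne a2 b1 x2 x3).symm, hbb, hne a2 b2 x2 x4, (kw hb w1).symm, (kw hb w2).symm,
        (kw hb w3).symm, (kw hb w4).symm]
    · simp [e1.symm, hn a1 ha1 b1 hb1, (hn a2 ha2 b1 hb1).symm, hn a2 ha2 b2 hb2, e2]
    · simp [(Finset.mem_sdiff.1 w1).2, (Finset.mem_sdiff.1 w2).2, (Finset.mem_sdiff.1 w3).2,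
        (Finset.mem_sdiff.1 w4).2]
    · simp [h.card]
  have hex : ∀ e ∈ K, (priv G X K e).Nonempty := fun e he =>
    Finset.card_pos.1 (by have := hpc e he; omega)
  let r : V → V := fun e => if e = a then p else if e = b then q else
    if he : e ∈ K then (hex e he).choose else e
  have hr : ∀ e ∈ K, r e ∈ priv G X K e := by
    intro e he
    simp only [r]
    split_ifs with h1 h2
    · exact h1 ▸ hp1
    · exact h2 ▸ hq1
    · exact (hex e he).choose_spec
  refine h.priv_reps hk (K.image r) (fun e he => ⟨r e, Finset.mem_image_of_mem _ he, hr e he⟩)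
    ?_ ?_ ?_
  · intro y hy
    obtain ⟨e, he, rfl⟩ := Finset.mem_image.1 hy
    exact ⟨e, he, hr e he⟩
  · intro y hy y' hy' hA
    obtain ⟨e, he, rfl⟩ := Finset.mem_image.1 hy
    obtain ⟨f, hf, rfl⟩ := Finset.mem_image.1 hy'
    rcases eq_or_ne e f with rfl | hne
    · exact hA.ne rfl
    have hra : r a = p := if_pos rfl
    have hrb : r b = q := by simp [r, hab.symm]
    rcases hcov e f hne (hedge e f hne _ (hr e he) _ (hr f hf) hA) with ⟨rfl, rfl⟩ | ⟨rfl, rfl⟩
    · exact hpq (hra ▸ hrb ▸ hA)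
    · exact hpq (hra ▸ hrb ▸ hA.symm)
  · intro y hy y' hy' hr'
    obtain ⟨e, he, rfl⟩ := Finset.mem_image.1 hy
    obtain ⟨f, hf, rfl⟩ := Finset.mem_image.1 hy'
    rw [(hp e _ (hr e he)).2.2.2, (hp f _ (hr f hf)).2.2.2] at hr'
    rw [Finset.singleton_injective hr']

end Vale.Agent.P048.Full.Small
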