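import Vale.Agent.P048.Full.Units
import Vale.Agent.P048.CliqueUp

/-!
P048, small cycle lengths: explicit cycles through a clique, small Ramsey bounds, and sums of
independence numbers over pairwise anticomplete sets.
-/

open scoped Classical

namespace Vale.Agent.P048.Full.Small

variable {V : Type*} {G : SimpleGraph V}

/-- No clique inside `Y` has `j` or more vertices. -/
def CF (G : SimpleGraph V) (Y : Finset V) (j : ℕ) : Prop :=
  ∀ K, K ⊆ Y → G.IsClique (K : Set V) → K.card < j

lemma CF.mono {Y Z : Finset V} {j : ℕ} (h : CF G Y j) (hZ : Z ⊆ Y) : CF G Z j :=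
  fun K hK hc => h K (hK.trans hZ) hc

lemma CF.not_tri {Y : Finset V} (h : CF G Y 3) {a b c : V} (ha : a ∈ Y) (hb : b ∈ Y) (hc : c ∈ Y)
    (hab : G.Adj a b) (hac : G.Adj a c) : ¬ G.Adj b c := by
  intro hbc
  have hcl : G.IsClique (({a, b, c} : Finset V) : Set V) := by
    have := SimpleGraph.is3Clique_triple_iff.2 ⟨hab, hac, hbc⟩
    exact this.isClique
  have h3 := h {a, b, c} (by simp [Finset.insert_subset_iff, ha, hb, hc]) hcl
  rw [Finset.card_eq_three.2 ⟨a, b, c, hab.ne, hac.ne, hbc.ne, rfl⟩] at h3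
  omega

lemma card_le_of_clique {Y : Finset V} {j : ℕ} (h : CF G Y j) (ha : alpha G Y ≤ 1) :
    Y.card < j := h Y Finset.Subset.rfl (clique_of_alpha_le_one ha)

lemma two_le_alpha {Y : Finset V} {j : ℕ} (h : CF G Y j) (hY : j ≤ Y.card) : 2 ≤ alpha G Y := by
  by_contra hlt
  have := card_le_of_clique h (by omega)
  omega

lemma hasCyc_of_list (a : V) (l : List V) (hnd : (a :: l).Nodup)
    (hch : List.IsChain G.Adj (a :: l)) (hcl : G.Adj ((a :: l).getLast (by simp)) a) :
    HasCyc G (l.length + 1) := by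
  refine ⟨fun i => (a :: l).getD i a, l.length, rfl, ⟨fun i j hi hj h => ?_, fun i hi => ?_⟩, ?_⟩
  · have hi' : i < (a :: l).length := by simp; omega
    have hj' : j < (a :: l).length := by simp; omega
    simp only [List.getD_eq_getElem _ _ hi', List.getD_eq_getElem _ _ hj'] at h
    exact (hnd.getElem_inj_iff).1 h
  · have hi' : i + 1 < (a :: l).length := by simp; omega
    simp only [List.getD_eq_getElem _ _ (by omega : i < (a :: l).length),
      List.getD_eq_getElem _ _ hi']
    exact List.isChain_iff_getElem.1 hch i hi'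
  · have h0 : (a :: l).getD 0 a = a := rfl
    have h1 : (a :: l).getD l.length a = (a :: l).getLast (by simp) := by
      rw [List.getD_eq_getElem _ _ (by simp), List.getLast_eq_getElem]
      congr 1
    simp only [h0, h1]
    exact hcl

/-- A path between two clique vertices closes to a cycle through further clique vertices.
`S` lists the clique vertices on the path. -/
lemma fill {K : Finset V} {m : ℕ} (hK : G.IsClique (K : Set V)) (a b : V) (mid S : List V)
    (hnd : (a :: (mid ++ [b])).Nodup) (hch : List.IsChain G.Adj (a :: (mid ++ [b])))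
    (hab : a ∈ K ∧ b ∈ K) (hS : ∀ x ∈ mid, x ∈ K → x ∈ S)
    (h1 : mid.length + 2 ≤ m) (h2 : m + S.length ≤ mid.length + K.card) : HasCyc G m := by
  have hsub : (K.filter fun x => x ∈ a :: (mid ++ [b])) ⊆ (a :: b :: S).toFinset := by
    intro x hx
    simp only [Finset.mem_filter, List.mem_cons, List.mem_append, List.mem_nil_iff, or_false] at hx
    simp only [List.mem_toFinset, List.mem_cons]
    rcases hx.2 with h | h | h
    · exact Or.inl h
    · exact Or.inr (Or.inr (hS x h hx.1))
    · exact Or.inr (Or.inl h)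
  have hc1 := (Finset.card_le_card hsub).trans (List.toFinset_card_le _)
  simp only [List.length_cons] at hc1
  have hc2 := Finset.card_filter_add_card_filter_not (s := K) (fun x => x ∈ a :: (mid ++ [b]))
  obtain ⟨T, hT, hTc⟩ := Finset.exists_subset_card_eq
    (s := K.filter fun x => ¬ x ∈ a :: (mid ++ [b])) (n := m - (mid.length + 2)) (by omega)
  have hTm : ∀ x ∈ T.toList, x ∈ K ∧ ¬ x ∈ a :: (mid ++ [b]) :=
    fun x hx => Finset.mem_filter.1 (hT (Finset.mem_toList.1 hx))
  have hTch : List.IsChain G.Adj T.toList := by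
    refine List.Pairwise.isChain ((Finset.nodup_toList T).imp_of_mem ?_)
    intro x y hx hy hxy
    exact hK (hTm x hx).1 (hTm y hy).1 hxy
  have hlen : (mid ++ [b] ++ T.toList).length + 1 = m := by
    simp [Finset.length_toList]
    omega
  rw [← hlen]
  refine hasCyc_of_list a _ ?_ ?_ ?_
  · rw [← List.cons_append, List.nodup_append]
    refine ⟨hnd, Finset.nodup_toList _, fun x hx y hy hxy => ?_⟩
    exact (hTm y hy).2 (hxy ▸ hx)
  · rw [← List.cons_append, List.isChain_append]
    refine ⟨hch, hTch, fun x hx y hy => ?_⟩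
    rw [← List.cons_append, List.getLast?_append, List.getLast?_singleton] at hx
    simp only [Option.or_eq_some_iff, Option.some.injEq, Option.mem_def] at hx
    have hy' : y ∈ T.toList := List.mem_of_mem_head? hy
    have hxb : x = b := by simpa [eq_comm] using hx
    subst hxb
    exact hK hab.2 (hTm y hy').1 fun h => (hTm y hy').2 (by simp [h])
  · by_cases hT0 : T.toList = []
    · have hne : a ≠ b := by
        intro h
        simp [h] at hnd
      simp [hT0]
      exact hK hab.2 hab.1 hne.symm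
    · have hl : T.toList.getLast hT0 ∈ T.toList := List.getLast_mem _
      have := hK (hTm _ hl).1 hab.1 fun h => (hTm _ hl).2 (by simp [h])
      simpa [List.getLast_cons, List.getLast_append_of_ne_nil, hT0] using this

lemma alpha_biUnion {ι : Type*} (A : ι → Finset V) (R : Finset ι) {X : Finset V}
    (hX : ∀ i ∈ R, A i ⊆ X)
    (h : ∀ i ∈ R, ∀ j ∈ R, i ≠ j → Disjoint (A i) (A j) ∧ ∀ x ∈ A i, ∀ y ∈ A j, ¬ G.Adj x y) :
    ∑ i ∈ R, alpha G (A i) ≤ alpha G (R.biUnion A) := by
  induction R using Finset.induction_on with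
  | empty => simp
  | @insert i R hi ih =>
    rw [Finset.sum_insert hi, Finset.biUnion_insert]
    have hd : Disjoint (A i) (R.biUnion A) := by
      rw [Finset.disjoint_biUnion_right]
      exact fun j hj => (h i (Finset.mem_insert_self _ _) j (Finset.mem_insert_of_mem hj)
        (fun e => hi (e ▸ hj))).1
    refine le_trans (Nat.add_le_add_left (ih (fun j hj => hX j (Finset.mem_insert_of_mem hj))
      (fun j hj l hl hne => h j (Finset.mem_insert_of_mem hj) l (Finset.mem_insert_of_mem hl) hne)) _)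
      (alpha_add Finset.subset_union_left Finset.subset_union_right hd ?_)
    intro x hx y hy
    obtain ⟨j, hj, hy⟩ := Finset.mem_biUnion.1 hy
    exact (h i (Finset.mem_insert_self _ _) j (Finset.mem_insert_of_mem hj)
      (fun e => hi (e ▸ hj))).2 x hx y hy

lemma indep_nb {Y : Finset V} (h : CF G Y 3) {v : V} (hv : v ∈ Y) : Indep G (nb G v Y) := by
  intro x hx y hy
  rw [mem_nb] at hx hy
  exact h.not_tri hv hx.1 hy.1 hx.2 hy.2

lemma nb_le_alpha {Y : Finset V} (h : CF G Y 3) {v : V} (hv : v ∈ Y) :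
    (nb G v Y).card ≤ alpha G Y :=
  le_alpha (Finset.filter_subset _ _) (indep_nb h hv)

/-- `R(3, 3) = 6`. -/
lemma r33 {Y : Finset V} (h : CF G Y 3) (ha : alpha G Y ≤ 2) : Y.card ≤ 5 := by
  rcases Y.eq_empty_or_nonempty with rfl | ⟨v, hv⟩
  · simp
  have h1 := card_le_nb_add (G := G) (X := Y) (v := v)
  have h2 := nb_le_alpha h hv
  have h3 := alpha_nonnb ha hv
  have h4 := card_le_of_clique (h.mono (Finset.filter_subset
    (fun y => y ≠ v ∧ ¬ G.Adj v y) Y)) (by omega)
  omega

/-- `R(3, 4) = 9`. -/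
lemma r34 {Y : Finset V} (h : CF G Y 3) (ha : alpha G Y ≤ 3) : Y.card ≤ 8 := by
  by_contra hbig
  obtain ⟨Z, hZ, hZc⟩ := Finset.exists_subset_card_eq (by omega : 9 ≤ Y.card)
  have haZ : alpha G Z ≤ 3 := (alpha_mono hZ).trans ha
  have hdeg : ∀ v ∈ Z, (nb G v Z).card = 3 := by
    intro v hv
    have h1 := card_le_nb_add (G := G) (X := Z) (v := v)
    have h2 := nb_le_alpha (h.mono hZ) hv
    have h3 := alpha_nonnb haZ hv
    have h4 := r33 ((h.mono hZ).mono (Finset.filter_subset
      (fun y => y ≠ v ∧ ¬ G.Adj v y) Z)) (by omega)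
    omega
  let H : SimpleGraph {x // x ∈ Z} := G.comap Subtype.val
  have hd : ∀ v, H.degree v = 3 := by
    intro v
    rw [← hdeg v.1 v.2, ← SimpleGraph.card_neighborFinset_eq_degree,
      ← Finset.card_map (Function.Embedding.subtype _)]
    congr 1
    ext x
    simp [H, nb, SimpleGraph.mem_neighborFinset]
    exact ⟨fun ⟨a, b⟩ => ⟨b, a⟩, fun ⟨a, b⟩ => ⟨b, a⟩⟩
  have h5 := H.sum_degrees_eq_twice_card_edges
  simp only [hd, Finset.sum_const, Finset.card_univ, Fintype.card_coe, hZc, smul_eq_mul] at h5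
  omega

lemma alpha_compl_le {Y : Finset V} {j : ℕ} (h : CF G Y (j + 1)) : alpha Gᶜ Y ≤ j := by
  refine alpha_le fun s hs hi => ?_
  have := h s hs (fun x hx y hy hxy => by
    by_contra hn
    exact hi x hx y hy ⟨hxy, hn⟩)
  omega

/-- `R(4, 3) = 9`. -/
lemma r43 {Y : Finset V} (h : CF G Y 4) (ha : alpha G Y ≤ 2) : Y.card ≤ 8 := by
  refine r34 (G := Gᶜ) (fun K hK hc => ?_) (alpha_compl_le h)
  have := le_alpha (G := G) hK (fun x hx y hy hxy => (hc hx hy hxy.ne).2 hxy)
  omega

/-- Without triangles and paths on five vertices, half of the vertices are independent. -/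
lemma tf_half {Y : Finset V} (h : CF G Y 3)
    (hp : ∀ l : List V, l.Nodup → (∀ x ∈ l, x ∈ Y) → List.IsChain G.Adj l → l.length ≤ 4) :
    Y.card ≤ 2 * alpha G Y := by
  induction Y using Finset.strongInduction with
  | _ Y ih =>
  rcases Y.eq_empty_or_nonempty with rfl | ⟨x, hx⟩
  · simp
  have step : ∀ D : Finset V, D ⊆ Y → D.Nonempty → ∀ I : Finset V, I ⊆ D → Indep G I →
      (∀ i ∈ I, ∀ y ∈ Y, G.Adj i y → y ∈ D) → D.card ≤ 2 * I.card → Y.card ≤ 2 * alpha G Y := by
    intro D hD hne I hI hIi hcl hc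
    have h1 := ih (Y \ D) (Finset.sdiff_ssubset hD hne) (h.mono Finset.sdiff_subset)
      (fun l a b c => hp l a (fun x hx => (Finset.mem_sdiff.1 (b x hx)).1) c)
    obtain ⟨s, hs, hsi, hsc⟩ := exists_alpha G (Y \ D)
    have hd : Disjoint I s := Finset.disjoint_left.2 fun i hi hi' =>
      (Finset.mem_sdiff.1 (hs hi')).2 (hI hi)
    have h2 := le_alpha (G := G) (s := I ∪ s) (Y := Y)
      (Finset.union_subset (hI.trans hD) (hs.trans Finset.sdiff_subset))
      (hIi.union hsi fun i hi y hy hiy => (Finset.mem_sdiff.1 (hs hy)).2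
        (hcl i hi y (Finset.mem_sdiff.1 (hs hy)).1 hiy))
    rw [Finset.card_union_of_disjoint hd] at h2
    have h3 := Finset.card_sdiff_add_card_eq_card hD
    omega
  by_cases hlow : ∃ v ∈ Y, (nb G v Y).card ≤ 1
  · obtain ⟨v, hv, hvc⟩ := hlow
    refine step (insert v (nb G v Y)) (Finset.insert_subset hv (Finset.filter_subset _ _))
      (Finset.insert_nonempty _ _) {v} (by simp) (by simp [Indep]) ?_ ?_
    · intro i hi y hy hiy
      rw [Finset.mem_singleton] at hi
      subst hi
      exact Finset.mem_insert_of_mem (mem_nb.2 ⟨hy, hiy⟩)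
    · have := Finset.card_insert_le v (nb G v Y)
      simp
      omega
  push Not at hlow
  have other : ∀ v ∈ Y, ∀ u, ∃ w ∈ Y, G.Adj v w ∧ w ≠ u := by
    intro v hv u
    obtain ⟨w, hw, hwu⟩ := Finset.exists_mem_ne (hlow v hv) u
    exact ⟨w, (mem_nb.1 hw).1, (mem_nb.1 hw).2, hwu⟩
  obtain ⟨b, hb, hxb, -⟩ := other x hx x
  obtain ⟨a, ha, hxa, hab⟩ := other x hx b
  obtain ⟨c, hc, hbc, hcx⟩ := other b hb x
  have hac : a ≠ c := fun e => h.not_tri hx ha hb hxa hxb (e ▸ hbc.symm)
  -- now `a x b c` is a path on four vertices, and every end of such a path sees only two of it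
  have key : ∀ p q r t, p ∈ Y → q ∈ Y → r ∈ Y → t ∈ Y → G.Adj p q → G.Adj q r → G.Adj r t →
      p ≠ r → q ≠ t → p ≠ t → G.Adj p t ∧ ∀ y ∈ Y, G.Adj p y → y = q ∨ y = t := by
    intro p q r t hp' hq hr ht hpq hqr hrt hpr hqt hpt
    have hin : ∀ y ∈ Y, G.Adj p y → y = q ∨ y = t := by
      intro y hy hpy
      by_contra hn
      push Not at hn
      have hyr : y ≠ r := fun e => h.not_tri hq hp' hr hpq.symm hqr (e ▸ hpy)
      have := hp [y, p, q, r, t] (by simp [hpy.ne', hn.1, hn.2, hyr, hpq.ne, hpr, hpt, hqr.ne, hqt,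
          hrt.ne]) (by simp [hy, hp', hq, hr, ht]) (by simp [hpy.symm, hpq, hqr, hrt])
      simp at this
    refine ⟨?_, hin⟩
    obtain ⟨w, hw, hpw, hwq⟩ := other p hp' q
    rcases hin w hw hpw with e | e
    · exact absurd e hwq
    · exact e ▸ hpw
  obtain ⟨hca, hAin⟩ := key a x b c ha hx hb hc hxa.symm hxb hbc hab hcx.symm hac
  obtain ⟨-, hBin⟩ := key b x a c hb hx ha hc hxb.symm hxa hca hab.symm hcx.symm hbc.ne
  refine step {a, x, b, c} (by simp [Finset.insert_subset_iff, ha, hx, hb, hc])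
    (Finset.insert_nonempty _ _) {a, b} (by simp [Finset.insert_subset_iff]) ?_ ?_ ?_
  · intro u hu w hw
    simp only [Finset.mem_insert, Finset.mem_singleton] at hu hw
    rcases hu with rfl | rfl <;> rcases hw with rfl | rfl
    · exact G.irrefl
    · exact h.not_tri hx ha hb hxa hxb
    · exact fun e => h.not_tri hx ha hb hxa hxb e.symm
    · exact G.irrefl
  · intro i hi y hy hiy
    simp only [Finset.mem_insert, Finset.mem_singleton] at hi ⊢
    rcases hi with rfl | rfl
    · rcases hAin y hy hiy with e | e <;> simp [e]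
    · rcases hBin y hy hiy with e | e <;> simp [e]
  · rw [Finset.card_pair hab]
    exact Finset.card_le_four

end Vale.Agent.P048.Full.Small
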